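import Vale.Agent.P268.T.H548.Tail

/-!
# P268, topological half: the level lemma for gates

`Gate s c L G`: functions `G t d z` of a complex variable `z` and a real number `0 ≤ d` which
closes a gate.  `Gate.level`: if `B` is tame and `χ` is a gate function for `B`, then
`B t (X, y) + G t (α * χ t y) z` is tame for all large `α`.
-/

set_option linter.unusedSectionVars false

namespace Vale.Agent.P268.T

open Set Filter Topology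

section Scale

variable {E : Type*} [NormedAddCommGroup E] [NormedSpace ℝ E]
  {Z : Type*} [NormedAddCommGroup Z] [NormedSpace ℝ Z]
  {T : Type*} [TopologicalSpace T]

/-- `RegAt` is an open condition. -/
theorem RegAt.eventually_near {s : Set T} {F : T → E → Z} {t₀ : T} {x₀ : E} (h : RegAt s F t₀ x₀) :
    ∀ᶠ p : T × E in 𝓝[s] t₀ ×ˢ 𝓝 x₀, RegAt s F p.1 p.2 := by
  obtain ⟨k, hk0, hk1, A, U, hU, hev⟩ := h
  have h1 : ∀ᶠ t in 𝓝[s] t₀, ∀ᶠ t' in 𝓝[s] t, MRegOn k (F t') A U :=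
    eventually_eventually_nhdsWithin.mpr hev
  have h2 : ∀ᶠ x in 𝓝 x₀, U ∈ 𝓝 x := eventually_mem_nhds_iff.mpr hU
  filter_upwards [h1.prod_mk h2] with p hp
  exact ⟨k, hk0, hk1, A, U, hp.2, hp.1⟩

/-- Rescaling. -/
theorem RegAt.rescale {s : Set T} {F : T → E → Z} {r : ℝ} (hr : 0 < r) {t₀ : T} {x₀ : E}
    (h : RegAt s F t₀ (r⁻¹ • x₀)) : RegAt s (fun t x => r • F t (r⁻¹ • x)) t₀ x₀ := by
  obtain ⟨k, hk0, hk1, A, U, hU, hev⟩ := h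
  refine ⟨k, hk0, hk1, A, (fun x : E => r⁻¹ • x) ⁻¹' U, ?_, ?_⟩
  · exact (continuous_const_smul r⁻¹).continuousAt.preimage_mem_nhds hU
  · filter_upwards [hev] with t ht x hx c hc
    have h1 : r⁻¹ • (x + A c) = r⁻¹ • x + A (r⁻¹ • c) := by rw [smul_add, map_smul]
    have h2 := ht (r⁻¹ • x) hx (r⁻¹ • c) (by rw [← h1]; exact hc)
    have h3 : r • F t (r⁻¹ • (x + A c)) - r • F t (r⁻¹ • x) - c =
        r • (F t (r⁻¹ • x + A (r⁻¹ • c)) - F t (r⁻¹ • x) - r⁻¹ • c) := by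
      rw [h1, smul_sub, smul_sub, smul_smul, mul_inv_cancel₀ hr.ne', one_smul]
    show ‖r • F t (r⁻¹ • (x + A c)) - r • F t (r⁻¹ • x) - c‖ ≤ k * ‖c‖
    rw [h3, norm_smul, Real.norm_of_nonneg hr.le]
    calc r * ‖F t (r⁻¹ • x + A (r⁻¹ • c)) - F t (r⁻¹ • x) - r⁻¹ • c‖
        ≤ r * (k * ‖r⁻¹ • c‖) := mul_le_mul_of_nonneg_left h2 hr.le
      _ = k * ‖c‖ := by
        rw [norm_smul, Real.norm_of_nonneg (inv_nonneg.mpr hr.le)]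
        field_simp

end Scale

variable {E : Type*} [NormedAddCommGroup E] [NormedSpace ℝ E]
  {Θ : Type*} [TopologicalSpace Θ]

/-- Tame families without the Lipschitz condition. -/
structure XTame (s : Set Θ) (F : Θ → E × ℂ → ℂ) : Prop where
  fam : HFam s F
  zreg : ∀ t₀ ∈ s, ∀ X₀ : E, X₀ ≠ 0 → 0 ≤ (F t₀ (X₀, 0)).re →
    RegAt (s ×ˢ (univ : Set ℂ)) (fun (p : Θ × ℂ) X => F p.1 (X, p.2)) (t₀, 0) X₀

theorem Tame.toX {s : Set Θ} {L : ℝ} {F : Θ → E × ℂ → ℂ} (h : Tame s L F) : XTame s F :=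
  ⟨h.fam, h.zreg⟩

theorem XTame.param {Θ' : Type*} [TopologicalSpace Θ'] {s : Set Θ} {s' : Set Θ'}
    {F : Θ → E × ℂ → ℂ} (h : XTame s F) {φ : Θ' → Θ} (hφ : ContinuousOn φ s')
    (hs : MapsTo φ s' s) : XTame s' (fun t => F (φ t)) where
  fam := h.fam.param hφ hs
  zreg := fun t ht X hX h0 => by
    refine RegAt.param (s := s ×ˢ (univ : Set ℂ)) (φ := fun p : Θ' × ℂ => (φ p.1, p.2))
      (F := fun (p : Θ × ℂ) X => F p.1 (X, p.2)) ?_ ?_ (h.zreg _ (hs ht) X hX h0)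
    · refine ContinuousWithinAt.prodMk ?_ continuousWithinAt_snd
      exact (hφ t ht).comp continuousWithinAt_fst fun p hp => hp.1
    · exact fun p hp => ⟨hs hp.1, mem_univ _⟩

/-- The regularity in the remaining variables, where the last variable is small. -/
theorem XTame.exists_small [ProperSpace E] {s : Set Θ} (hs : IsCompact s)
    {B : Θ → E × ℂ → ℂ} (hB : XTame s B) :
    ∃ η > 0, ∀ t ∈ s, ∀ X : E, X ≠ 0 → ∀ y : ℂ, ‖y‖ ≤ η * ‖X‖ → 0 ≤ (B t (X, y)).re →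
      RegAt (s ×ˢ (univ : Set ℂ)) (fun (p : Θ × ℂ) X => B p.1 (X, p.2)) (t, y) X := by
  let P : (Θ × E) × ℂ → Prop := fun q => 0 ≤ (B q.1.1 (q.1.2, q.2)).re →
    RegAt (s ×ˢ (univ : Set ℂ)) (fun (p : Θ × ℂ) X => B p.1 (X, p.2)) (q.1.1, q.2) q.1.2
  have key : ∀ q ∈ s ×ˢ Metric.sphere (0 : E) 1, ∀ᶠ r : (Θ × E) × ℂ in
      𝓝[s ×ˢ Metric.sphere (0 : E) 1] q ×ˢ 𝓝 (0 : ℂ), P r := by
    rintro ⟨t₀, X₀⟩ ⟨ht₀, hX₀⟩
    have hX0 : X₀ ≠ 0 := by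
      rintro rfl
      simp at hX₀
    rcases lt_or_ge (B t₀ (X₀, 0)).re 0 with hneg | hpos
    · have h1 : ContinuousWithinAt (fun r : (Θ × E) × ℂ => (B r.1.1 (r.1.2, r.2)).re)
          ((s ×ˢ Metric.sphere (0 : E) 1) ×ˢ univ) ((t₀, X₀), 0) := by
        have h2 : ContinuousWithinAt (fun r : (Θ × E) × ℂ => (r.1.1, (r.1.2, r.2)))
            ((s ×ˢ Metric.sphere (0 : E) 1) ×ˢ univ) ((t₀, X₀), 0) := by
          exact (by fun_prop : Continuous fun r : (Θ × E) × ℂ =>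
            (r.1.1, (r.1.2, r.2))).continuousWithinAt
        have h3 : ContinuousWithinAt (fun r : (Θ × E) × ℂ => B r.1.1 (r.1.2, r.2))
            ((s ×ˢ Metric.sphere (0 : E) 1) ×ˢ univ) ((t₀, X₀), 0) :=
          ContinuousWithinAt.comp (g := fun p : Θ × (E × ℂ) => B p.1 p.2)
            (f := fun r : (Θ × E) × ℂ => (r.1.1, (r.1.2, r.2)))
            (hB.fam.cont (t₀, (X₀, 0)) ⟨ht₀, mem_univ _⟩) h2
            (fun r hr => ⟨hr.1.1, mem_univ _⟩)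
        exact Complex.continuous_re.continuousAt.comp_continuousWithinAt h3
      have h2 : ∀ᶠ r : (Θ × E) × ℂ in 𝓝[(s ×ˢ Metric.sphere (0 : E) 1) ×ˢ univ] ((t₀, X₀), 0),
          (B r.1.1 (r.1.2, r.2)).re < 0 := h1.eventually (eventually_lt_nhds hneg)
      rw [nhdsWithin_prod_eq, nhdsWithin_univ] at h2
      filter_upwards [h2] with r hr h0
      exact absurd h0 (not_le.mpr hr)
    · have h1 := (hB.zreg t₀ ht₀ X₀ hX0 hpos).eventually_near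
      rw [nhdsWithin_prod_eq, nhdsWithin_univ] at h1
      have h2 : Tendsto (fun r : (Θ × E) × ℂ => ((r.1.1, r.2), r.1.2))
          (𝓝[s ×ˢ Metric.sphere (0 : E) 1] (t₀, X₀) ×ˢ 𝓝 (0 : ℂ))
          ((𝓝[s] t₀ ×ˢ 𝓝 (0 : ℂ)) ×ˢ 𝓝 X₀) := by
        rw [nhdsWithin_prod_eq]
        refine Tendsto.prodMk (Tendsto.prodMk ?_ tendsto_snd) ?_
        · exact tendsto_fst.comp tendsto_fst
        · exact ((tendsto_snd.comp tendsto_fst).mono_right nhdsWithin_le_nhds)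
      filter_upwards [h2.eventually h1] with r hr _
      exact hr
  have hK : IsCompact (s ×ˢ Metric.sphere (0 : E) 1) := hs.prod (isCompact_sphere _ _)
  have h1 : ∀ᶠ y : ℂ in 𝓝 (0 : ℂ), ∀ q ∈ s ×ˢ Metric.sphere (0 : E) 1, P (q, y) := by
    refine hK.induction_on (p := fun K => ∀ᶠ y : ℂ in 𝓝 (0 : ℂ), ∀ q ∈ K, P (q, y)) ?_ ?_ ?_ ?_
    · exact Eventually.of_forall fun y q hq => absurd hq (notMem_empty q)
    · intro K K' hKK' h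
      filter_upwards [h] with y hy q hq
      exact hy q (hKK' hq)
    · intro K K' h h'
      filter_upwards [h, h'] with y hy hy' q hq
      exact hq.elim (hy q) (hy' q)
    · intro q hq
      obtain ⟨pa, ha, pb, hb, hab⟩ := eventually_prod_iff.mp (key q hq)
      refine ⟨{q | pa q}, ha, ?_⟩
      filter_upwards [hb] with y hy q' hq'
      exact hab hq' hy
  obtain ⟨η, hη, hball⟩ := Metric.eventually_nhds_iff_ball.mp h1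
  refine ⟨η / 2, by positivity, fun t ht X hX y hy h0 => ?_⟩
  have hX' : 0 < ‖X‖ := norm_pos_iff.mpr hX
  have e1 : ‖X‖⁻¹ • y ∈ Metric.ball (0 : ℂ) η := by
    rw [mem_ball_zero_iff, norm_smul, norm_inv, norm_norm, inv_mul_lt_iff₀ hX']
    nlinarith
  have e2 : (t, ‖X‖⁻¹ • X) ∈ s ×ˢ Metric.sphere (0 : E) 1 := by
    refine ⟨ht, ?_⟩
    rw [mem_sphere_zero_iff_norm, norm_smul, norm_inv, norm_norm, inv_mul_cancel₀ hX'.ne']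
  have e3 : B t (‖X‖⁻¹ • X, ‖X‖⁻¹ • y) = ‖X‖⁻¹ • B t (X, y) :=
    hB.fam.hom t ht ‖X‖⁻¹ (inv_nonneg.mpr hX'.le) (X, y)
  have e4 := hball _ e1 _ e2 (by
    show 0 ≤ (B t (‖X‖⁻¹ • X, ‖X‖⁻¹ • y)).re
    rw [e3, Complex.real_smul, Complex.re_ofReal_mul]
    exact mul_nonneg (inv_nonneg.mpr hX'.le) h0)
  have e5 : RegAt (s ×ˢ (univ : Set ℂ))
      (fun (p : Θ × ℂ) x => B p.1 (x, ‖X‖⁻¹ • p.2)) (t, y) (‖X‖⁻¹ • X) := by
    refine RegAt.param (s := s ×ˢ (univ : Set ℂ)) (φ := fun p : Θ × ℂ => (p.1, ‖X‖⁻¹ • p.2))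
      (F := fun (p : Θ × ℂ) X => B p.1 (X, p.2)) (t := (t, y)) ?_
      (fun p hp => ⟨hp.1, mem_univ _⟩) e4
    exact (by fun_prop : Continuous fun p : Θ × ℂ => (p.1, ‖X‖⁻¹ • p.2)).continuousWithinAt
  have e6 := e5.rescale hX'
  refine e6.congr ⟨univ, univ_mem, ?_⟩
  filter_upwards [self_mem_nhdsWithin] with p hp x _
  have e7 : B p.1 (‖X‖⁻¹ • x, ‖X‖⁻¹ • p.2) = ‖X‖⁻¹ • B p.1 (x, p.2) :=
    hB.fam.hom p.1 hp.1 ‖X‖⁻¹ (inv_nonneg.mpr hX'.le) (x, p.2)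
  rw [e7, smul_smul, mul_inv_cancel₀ hX'.ne', one_smul]

theorem Tame.exists_small [ProperSpace E] {s : Set Θ} (hs : IsCompact s) {L : ℝ}
    {B : Θ → E × ℂ → ℂ} (hB : Tame s L B) :
    ∃ η > 0, ∀ t ∈ s, ∀ X : E, X ≠ 0 → ∀ y : ℂ, ‖y‖ ≤ η * ‖X‖ → 0 ≤ (B t (X, y)).re →
      RegAt (s ×ˢ (univ : Set ℂ)) (fun (p : Θ × ℂ) X => B p.1 (X, p.2)) (t, y) X :=
  hB.toX.exists_small hs

/-- A uniform bound for a family of class `H` over a compact set. -/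
theorem HFam.exists_bound {E : Type*} [NormedAddCommGroup E] [NormedSpace ℝ E] [ProperSpace E]
    {s : Set Θ} (hs : IsCompact s) {F : Θ → E → ℂ} (hF : HFam s F) :
    ∃ C > 0, ∀ t ∈ s, ∀ x, ‖F t x‖ ≤ C * ‖x‖ := by
  have hK : IsCompact (s ×ˢ Metric.sphere (0 : E) 1) := hs.prod (isCompact_sphere _ _)
  obtain ⟨C, hC⟩ := hK.exists_bound_of_continuousOn
    (f := fun p : Θ × E => F p.1 p.2) (hF.cont.mono (prod_mono Subset.rfl (subset_univ _)))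
  refine ⟨max C 1, by positivity, fun t ht x => ?_⟩
  rcases eq_or_ne x 0 with rfl | hx
  · rw [(hF.hom t ht).zero]; simp
  · have hx' : 0 < ‖x‖ := norm_pos_iff.mpr hx
    have h1 := hC (t, ‖x‖⁻¹ • x) ⟨ht, by
      rw [mem_sphere_zero_iff_norm, norm_smul, norm_inv, norm_norm, inv_mul_cancel₀ hx'.ne']⟩
    have h2 : F t (‖x‖⁻¹ • x) = ‖x‖⁻¹ • F t x := hF.hom t ht _ (inv_nonneg.mpr hx'.le) x
    simp only [h2, norm_smul, norm_inv, norm_norm] at h1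
    rw [inv_mul_le_iff₀ hx'] at h1
    calc ‖F t x‖ ≤ ‖x‖ * C := h1
      _ ≤ ‖x‖ * max C 1 := mul_le_mul_of_nonneg_left (le_max_left _ _) hx'.le
      _ = max C 1 * ‖x‖ := mul_comm _ _

/-- Near `(t₀, d₀, z₀)` the value `G t d z` does not depend on `d`. -/
def Indep (s : Set Θ) (G : Θ → ℝ → ℂ → ℂ) (t₀ : Θ) (d₀ : ℝ) (z₀ : ℂ) : Prop :=
  ∃ D ∈ 𝓝 d₀, ∀ᶠ p : Θ × ℂ in 𝓝[s ×ˢ (univ : Set ℂ)] (t₀, z₀), ∀ d ∈ D, 0 ≤ d →
    G p.1 d p.2 = G p.1 d₀ p.2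

/-- The gate is shut at `(t₀, d₀, z₀)`. -/
def Shut (s : Set Θ) (c : ℝ) (G : Θ → ℝ → ℂ → ℂ) (t₀ : Θ) (d₀ : ℝ) (z₀ : ℂ) : Prop :=
  (G t₀ d₀ z₀).re < 0 ∧ (Indep s G t₀ d₀ z₀ ∨ (G t₀ d₀ z₀).re ≤ -(c * d₀))

/-- Families of gates (no Lipschitz condition): `G t d z`, where `d ≥ 0` closes the gate. -/
structure XGate (s : Set Θ) (c : ℝ) (G : Θ → ℝ → ℂ → ℂ) : Prop where
  cpos : 0 < c
  cont : ContinuousOn (fun p : Θ × (ℝ × ℂ) => G p.1 p.2.1 p.2.2) (s ×ˢ (Ici 0 ×ˢ univ))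
  hom : ∀ t ∈ s, ∀ r : ℝ, 0 ≤ r → ∀ d : ℝ, 0 ≤ d → ∀ z : ℂ, G t (r * d) (r • z) = r • G t d z
  zero : ∀ t ∈ s, ∀ d : ℝ, 0 ≤ d → G t d 0 = 0
  indep : ∀ t ∈ s, ∀ d : ℝ, 0 < d → Indep s G t d 0
  cases : ∀ t ∈ s, ∀ d : ℝ, 0 ≤ d → ∀ z : ℂ, z ≠ 0 →
    RegAt (s ×ˢ Ici (0 : ℝ)) (fun (p : Θ × ℝ) z => G p.1 p.2 z) (t, d) z ∨ Shut s c G t d z

/-- Families of gates: `G t d z`, where `d ≥ 0` closes the gate. -/
structure Gate (s : Set Θ) (c L : ℝ) (G : Θ → ℝ → ℂ → ℂ) : Prop where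
  cpos : 0 < c
  cont : ContinuousOn (fun p : Θ × (ℝ × ℂ) => G p.1 p.2.1 p.2.2) (s ×ˢ (Ici 0 ×ˢ univ))
  hom : ∀ t ∈ s, ∀ r : ℝ, 0 ≤ r → ∀ d : ℝ, 0 ≤ d → ∀ z : ℂ, G t (r * d) (r • z) = r • G t d z
  zero : ∀ t ∈ s, ∀ d : ℝ, 0 ≤ d → G t d 0 = 0
  lip : ∀ t ∈ s, ∀ d : ℝ, 0 ≤ d → ∀ z z' : ℂ, ‖G t d z - G t d z'‖ ≤ L * ‖z - z'‖
  indep : ∀ t ∈ s, ∀ d : ℝ, 0 < d → Indep s G t d 0
  cases : ∀ t ∈ s, ∀ d : ℝ, 0 ≤ d → ∀ z : ℂ, z ≠ 0 →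
    RegAt (s ×ˢ Ici (0 : ℝ)) (fun (p : Θ × ℝ) z => G p.1 p.2 z) (t, d) z ∨ Shut s c G t d z

theorem Gate.toX {s : Set Θ} {c L : ℝ} {G : Θ → ℝ → ℂ → ℂ} (h : Gate s c L G) : XGate s c G :=
  ⟨h.cpos, h.cont, h.hom, h.zero, h.indep, h.cases⟩

/-- Near `y₀` the family `B` splits, and the last part has negative real part at `y₀`. -/
def SplitAt (s : Set Θ) (B : Θ → E × ℂ → ℂ) (t₀ : Θ) (y₀ : ℂ) : Prop :=
  ∃ M : Θ → E → ℂ, HFam s M ∧ ∃ p : Θ → ℂ → ℂ, (p t₀ y₀).re < 0 ∧ ∃ U ∈ 𝓝 y₀,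
    ∀ᶠ t in 𝓝[s] t₀, ∀ y ∈ U, ∀ X, B t (X, y) = M t X + p t y

/-- Over `y₀` the family `B` is regular in the first variables. -/
def CollarAt (s : Set Θ) (B : Θ → E × ℂ → ℂ) (t₀ : Θ) (y₀ : ℂ) : Prop :=
  ∀ X : E, 0 ≤ (B t₀ (X, y₀)).re →
    RegAt (s ×ˢ (univ : Set ℂ)) (fun (p : Θ × ℂ) X => B p.1 (X, p.2)) (t₀, y₀) X

/-- Splitting points are regular in the direction of the first variables. -/
theorem SplitAt.collar {s : Set Θ} {B : Θ → E × ℂ → ℂ} {t₀ : Θ} (ht : t₀ ∈ s) {y₀ : ℂ}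
    (h : SplitAt s B t₀ y₀) : CollarAt s B t₀ y₀ := by
  intro X h0
  obtain ⟨M, hM, p, hp, U, hU, hev⟩ := h
  have h1 : B t₀ (X, y₀) = M t₀ X + p t₀ y₀ :=
    mem_of_mem_nhdsWithin ht hev y₀ (mem_of_mem_nhds hU) X
  have h2 : 0 < (M t₀ X).re := by
    rw [h1, Complex.add_re] at h0
    linarith
  have hX : X ≠ 0 := by
    intro e
    rw [e, (hM.hom t₀ ht).zero] at h2
    simp at h2
  have h3 : RegAt (s ×ˢ (univ : Set ℂ)) (fun (p : Θ × ℂ) X => M p.1 X) (t₀, y₀) X :=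
    RegAt.param (φ := Prod.fst) (F := M) (t := (t₀, y₀)) continuousWithinAt_fst
      (fun p hp => hp.1) (hM.reg t₀ ht X hX h2.le)
  refine (h3.add_const fun q => p q.1 q.2).congr ⟨univ, univ_mem, ?_⟩
  have h4 : ∀ᶠ q : Θ × ℂ in 𝓝[s ×ˢ (univ : Set ℂ)] (t₀, y₀),
      (∀ y ∈ U, ∀ X, B q.1 (X, y) = M q.1 X + p q.1 y) ∧ q.2 ∈ U := by
    rw [nhdsWithin_prod_eq, nhdsWithin_univ]
    exact hev.prod_mk hU
  filter_upwards [h4] with q hq X _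
  rw [hq.1 q.2 hq.2 X, add_comm]

/-- Gate functions for a tame family `B`. -/
structure GateFun (s : Set Θ) (B : Θ → E × ℂ → ℂ) (χ : Θ → ℂ → ℝ) : Prop where
  cont : ContinuousOn (fun p : Θ × ℂ => χ p.1 p.2) (s ×ˢ univ)
  hom : ∀ t ∈ s, ∀ r : ℝ, 0 ≤ r → ∀ y : ℂ, χ t (r • y) = r * χ t y
  nonneg : ∀ t ∈ s, ∀ y, 0 ≤ χ t y
  cases : ∀ t ∈ s, ∀ y : ℂ, y ≠ 0 →
    (∃ U ∈ 𝓝 y, ∀ᶠ t' in 𝓝[s] t, ∀ y' ∈ U, χ t' y' = 0) ∨ CollarAt s B t y ∨ ‖y‖ ≤ χ t y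

theorem GateFun.zero {s : Set Θ} {B : Θ → E × ℂ → ℂ} {χ : Θ → ℂ → ℝ} (h : GateFun s B χ)
    {t : Θ} (ht : t ∈ s) : χ t 0 = 0 := by
  have := h.hom t ht 0 le_rfl 0
  simpa using this

/-- Attaching a gate. -/
def attach (B : Θ → E × ℂ → ℂ) (G : Θ → ℝ → ℂ → ℂ) (χ : Θ → ℂ → ℝ) (q : Θ × ℝ)
    (p : (E × ℂ) × ℂ) : ℂ :=
  B q.1 p.1 + G q.1 (q.2 * χ q.1 p.1.2) p.2

section Level

variable {s : Set Θ} {L L' c : ℝ} {B : Θ → E × ℂ → ℂ} {G : Θ → ℝ → ℂ → ℂ} {χ : Θ → ℂ → ℝ}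

/-- the argument of the gate -/
theorem gate_arg (hχ : GateFun s B χ) {q₀ : Θ × ℝ} (hq : q₀ ∈ s ×ˢ Ici (0 : ℝ)) (y₀ : ℂ) :
    ContinuousWithinAt (fun r : (Θ × ℝ) × ℂ => r.1.2 * χ r.1.1 r.2)
      ((s ×ˢ Ici (0 : ℝ)) ×ˢ univ) (q₀, y₀) := by
  refine (continuousWithinAt_fst.snd).mul ?_
  exact ContinuousWithinAt.comp (g := fun p : Θ × ℂ => χ p.1 p.2)
    (f := fun r : (Θ × ℝ) × ℂ => (r.1.1, r.2)) (hχ.cont (q₀.1, y₀) ⟨hq.1, mem_univ _⟩)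
    (by exact (by fun_prop : Continuous fun r : (Θ × ℝ) × ℂ => (r.1.1, r.2)).continuousWithinAt)
    (fun r hr => ⟨hr.1.1, mem_univ _⟩)

/-- Regularity in the old variables, with the new variable as a parameter. -/
def RegOld (s : Set Θ) (B : Θ → E × ℂ → ℂ) (G : Θ → ℝ → ℂ → ℂ) (χ : Θ → ℂ → ℝ) (q₀ : Θ × ℝ)
    (x₀ : E × ℂ) (z₀ : ℂ) : Prop :=
  RegAt ((s ×ˢ Ici (0 : ℝ)) ×ˢ (univ : Set ℂ))
    (fun (p : (Θ × ℝ) × ℂ) x => attach B G χ p.1 (x, p.2)) (q₀, z₀) x₀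

/-- The direction of `B`. -/
theorem regOld_of_base {q₀ : Θ × ℝ} {x₀ : E × ℂ} {z₀ : ℂ} (hB : RegAt s B q₀.1 x₀) {g : (Θ × ℝ) × ℂ → ℂ}
    (hg : ∃ V ∈ 𝓝 x₀.2, ∀ᶠ p : (Θ × ℝ) × ℂ in 𝓝[(s ×ˢ Ici (0 : ℝ)) ×ˢ (univ : Set ℂ)] (q₀, z₀),
      ∀ y ∈ V, G p.1.1 (p.1.2 * χ p.1.1 y) p.2 = g p) : RegOld s B G χ q₀ x₀ z₀ := by
  have h1 : RegAt ((s ×ˢ Ici (0 : ℝ)) ×ˢ (univ : Set ℂ))
      (fun (p : (Θ × ℝ) × ℂ) x => B p.1.1 x) (q₀, z₀) x₀ :=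
    RegAt.param (φ := fun p : (Θ × ℝ) × ℂ => p.1.1) (F := B) (t := (q₀, z₀))
      continuousWithinAt_fst.fst (fun p hp => hp.1.1) hB
  obtain ⟨V, hV, hev⟩ := hg
  refine (h1.add_const g).congr ⟨Prod.snd ⁻¹' V, continuous_snd.continuousAt.preimage_mem_nhds hV,
    ?_⟩
  filter_upwards [hev] with p hp x hx
  show g p + B p.1.1 x = B p.1.1 x + G p.1.1 (p.1.2 * χ p.1.1 x.2) p.2
  rw [hp x.2 hx, add_comm]

/-- The direction of the first variables of `B`. -/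
theorem regOld_of_fst {q₀ : Θ × ℝ} {x₀ : E × ℂ} {z₀ : ℂ}
    (hB : RegAt (s ×ˢ (univ : Set ℂ)) (fun (p : Θ × ℂ) X => B p.1 (X, p.2)) (q₀.1, x₀.2) x₀.1) :
    RegOld s B G χ q₀ x₀ z₀ := by
  refine RegAt.fst ?_
  have h1 : RegAt (((s ×ˢ Ici (0 : ℝ)) ×ˢ (univ : Set ℂ)) ×ˢ (univ : Set ℂ))
      (fun (p : ((Θ × ℝ) × ℂ) × ℂ) X => B p.1.1.1 (X, p.2)) ((q₀, z₀), x₀.2) x₀.1 := by
    refine RegAt.param (s := s ×ˢ (univ : Set ℂ)) (φ := fun p : ((Θ × ℝ) × ℂ) × ℂ =>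
      (p.1.1.1, p.2)) (F := fun (p : Θ × ℂ) X => B p.1 (X, p.2)) (t := ((q₀, z₀), x₀.2)) ?_
      (fun p hp => ⟨hp.1.1.1, mem_univ _⟩) hB
    exact (by fun_prop : Continuous fun p : ((Θ × ℝ) × ℂ) × ℂ =>
      (p.1.1.1, p.2)).continuousWithinAt
  refine (h1.add_const fun p => G p.1.1.1 (p.1.1.2 * χ p.1.1.1 p.2) p.1.2).congr
    ⟨univ, univ_mem, Eventually.of_forall fun p X _ => ?_⟩
  show G p.1.1.1 (p.1.1.2 * χ p.1.1.1 p.2) p.1.2 + B p.1.1.1 (X, p.2) =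
    B p.1.1.1 (X, p.2) + G p.1.1.1 (p.1.1.2 * χ p.1.1.1 p.2) p.1.2
  rw [add_comm]

/-- The gate is not active near `y₀`. -/
theorem exists_const_of_zero {q₀ : Θ × ℝ} {y₀ z₀ : ℂ}
    (h : ∃ U ∈ 𝓝 y₀, ∀ᶠ t' in 𝓝[s] q₀.1, ∀ y' ∈ U, χ t' y' = 0) :
    ∃ V ∈ 𝓝 y₀, ∀ᶠ p : (Θ × ℝ) × ℂ in 𝓝[(s ×ˢ Ici (0 : ℝ)) ×ˢ (univ : Set ℂ)] (q₀, z₀),
      ∀ y ∈ V, G p.1.1 (p.1.2 * χ p.1.1 y) p.2 = (fun p : (Θ × ℝ) × ℂ => G p.1.1 0 p.2) p := by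
  obtain ⟨U, hU, hev⟩ := h
  refine ⟨U, hU, ?_⟩
  have h1 : Tendsto (fun p : (Θ × ℝ) × ℂ => p.1.1)
      (𝓝[(s ×ˢ Ici (0 : ℝ)) ×ˢ (univ : Set ℂ)] (q₀, z₀)) (𝓝[s] q₀.1) := by
    have h2 : ContinuousWithinAt (fun p : (Θ × ℝ) × ℂ => p.1.1)
        ((s ×ˢ Ici (0 : ℝ)) ×ˢ (univ : Set ℂ)) (q₀, z₀) := continuousWithinAt_fst.fst
    exact h2.tendsto_nhdsWithin fun p hp => hp.1.1
  filter_upwards [h1.eventually hev] with p hp y hy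
  rw [hp y hy, mul_zero]

/-- The gate does not depend on its argument. -/
theorem exists_const_of_indep (hχ : GateFun s B χ) {q₀ : Θ × ℝ} (hq : q₀ ∈ s ×ˢ Ici (0 : ℝ))
    {y₀ z₀ : ℂ} (h : Indep s G q₀.1 (q₀.2 * χ q₀.1 y₀) z₀) :
    ∃ V ∈ 𝓝 y₀, ∀ᶠ p : (Θ × ℝ) × ℂ in 𝓝[(s ×ˢ Ici (0 : ℝ)) ×ˢ (univ : Set ℂ)] (q₀, z₀),
      ∀ y ∈ V, G p.1.1 (p.1.2 * χ p.1.1 y) p.2 =
        (fun p : (Θ × ℝ) × ℂ => G p.1.1 (q₀.2 * χ q₀.1 y₀) p.2) p := by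
  obtain ⟨D, hD, hev⟩ := h
  have h1 : ∀ᶠ r : (Θ × ℝ) × ℂ in 𝓝[(s ×ˢ Ici (0 : ℝ)) ×ˢ (univ : Set ℂ)] (q₀, y₀),
      r.1.2 * χ r.1.1 r.2 ∈ D := (gate_arg hχ hq y₀).eventually hD
  rw [nhdsWithin_prod_eq, nhdsWithin_univ, eventually_prod_iff] at h1
  obtain ⟨pa, ha, pb, hb, hab⟩ := h1
  refine ⟨{y | pb y}, hb, ?_⟩
  have h2 : Tendsto (fun p : (Θ × ℝ) × ℂ => (p.1.1, p.2))
      (𝓝[(s ×ˢ Ici (0 : ℝ)) ×ˢ (univ : Set ℂ)] (q₀, z₀)) (𝓝[s ×ˢ (univ : Set ℂ)] (q₀.1, z₀)) := by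
    have h3 : ContinuousWithinAt (fun p : (Θ × ℝ) × ℂ => (p.1.1, p.2))
        ((s ×ˢ Ici (0 : ℝ)) ×ˢ (univ : Set ℂ)) (q₀, z₀) := by
      exact (by fun_prop : Continuous fun p : (Θ × ℝ) × ℂ => (p.1.1, p.2)).continuousWithinAt
    exact h3.tendsto_nhdsWithin fun p hp => ⟨hp.1.1, mem_univ _⟩
  have h3 : ∀ᶠ p : (Θ × ℝ) × ℂ in 𝓝[(s ×ˢ Ici (0 : ℝ)) ×ˢ (univ : Set ℂ)] (q₀, z₀), pa p.1 := by
    have h4 : Tendsto Prod.fst (𝓝[(s ×ˢ Ici (0 : ℝ)) ×ˢ (univ : Set ℂ)] (q₀, z₀))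
        (𝓝[s ×ˢ Ici (0 : ℝ)] q₀) := by
      have h5 : ContinuousWithinAt Prod.fst ((s ×ˢ Ici (0 : ℝ)) ×ˢ (univ : Set ℂ)) (q₀, z₀) :=
        continuousWithinAt_fst
      exact h5.tendsto_nhdsWithin fun p hp => hp.1
    exact h4.eventually ha
  filter_upwards [h2.eventually hev, h3, self_mem_nhdsWithin] with p e1 e2 e3 y hy
  exact e1 _ (hab e2 hy) (mul_nonneg e3.1.2 (hχ.nonneg _ e3.1.1 y))

/-- **Level lemma**, without Lipschitz conditions. -/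
theorem XGate.level [FiniteDimensional ℝ E] (hs : IsCompact s) (hB : XTame s B)
    (hχ : GateFun s B χ) (hG : XGate s c G) :
    ∃ α₀ > 0, XTame (s ×ˢ Ici α₀) (attach B G χ) ∧ ∀ q ∈ s ×ˢ Ici α₀, ∀ z : ℂ,
      (∀ d : ℝ, 0 ≤ d → Shut s c G q.1 d z) → CollarAt (s ×ˢ Ici α₀) (attach B G χ) q z := by
  have : ProperSpace E := FiniteDimensional.proper ℝ E
  have : ProperSpace (E × ℂ) := FiniteDimensional.proper ℝ (E × ℂ)
  obtain ⟨η, hη, hsmall⟩ := hB.exists_small hs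
  obtain ⟨C, hC, hbound⟩ := hB.fam.exists_bound hs
  have hc := hG.cpos
  refine ⟨(C / η + C + 1) / c, by positivity, ?_⟩
  set α₀ := (C / η + C + 1) / c with hα₀
  have hα₀pos : 0 < α₀ := by positivity
  have hsub : s ×ˢ Ici α₀ ⊆ s ×ˢ Ici (0 : ℝ) :=
    prod_mono Subset.rfl (Ici_subset_Ici.mpr hα₀pos.le)
  -- the points with small `y`
  have hkey : ∀ q ∈ s ×ˢ Ici α₀, ∀ x : E × ℂ, 0 ≤ (B q.1 x).re → x.2 ≠ 0 → ‖x.2‖ ≤ χ q.1 x.2 →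
      c * (q.2 * χ q.1 x.2) ≤ (B q.1 x).re →
      RegAt (s ×ˢ (univ : Set ℂ)) (fun (p : Θ × ℂ) X => B p.1 (X, p.2)) (q.1, x.2) x.1 := by
    intro q hq x h0 hy hχy hle
    have hy' : 0 < ‖x.2‖ := norm_pos_iff.mpr hy
    have h1 : (B q.1 x).re ≤ C * ‖x‖ :=
      (Complex.re_le_norm _).trans (hbound q.1 hq.1 x)
    have h2 : ‖x‖ ≤ ‖x.1‖ + ‖x.2‖ := by
      rw [Prod.norm_def]
      exact max_le_add_of_nonneg (norm_nonneg _) (norm_nonneg _)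
    have h3 : c * (α₀ * ‖x.2‖) ≤ c * (q.2 * χ q.1 x.2) := by
      refine mul_le_mul_of_nonneg_left ?_ hc.le
      have : α₀ ≤ q.2 := hq.2
      nlinarith [hα₀pos]
    have h4 : c * (α₀ * ‖x.2‖) = (C / η + C + 1) * ‖x.2‖ := by
      rw [hα₀]; field_simp
    have h5 : C / η * ‖x.2‖ ≤ C * ‖x.1‖ := by nlinarith
    have h6 : ‖x.2‖ ≤ η * ‖x.1‖ := by
      have h7 : C / η * ‖x.2‖ = (C * ‖x.2‖) / η := by ring
      rw [h7, div_le_iff₀ hη] at h5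
      have h8 : C * ‖x.2‖ ≤ C * (η * ‖x.1‖) := by nlinarith
      exact le_of_mul_le_mul_left h8 hC
    have hX : x.1 ≠ 0 := by
      intro e
      rw [e, norm_zero, mul_zero] at h6
      linarith
    exact hsmall q.1 hq.1 x.1 hX x.2 h6 h0
  -- regularity in the old variables where `z = 0`
  have hreg0 : ∀ q ∈ s ×ˢ Ici α₀, ∀ x : E × ℂ, x ≠ 0 → 0 ≤ (B q.1 x).re →
      RegOld s B G χ q x 0 := by
    intro q hq x hx h0
    by_cases hy : x.2 = 0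
    · have hX : x.1 ≠ 0 := fun e => hx (Prod.ext e hy)
      refine regOld_of_fst ?_
      rw [hy]
      refine hB.zreg q.1 hq.1 x.1 hX ?_
      have e : (x.1, (0 : ℂ)) = x := Prod.ext rfl hy.symm
      rwa [e]
    · rcases hχ.cases q.1 hq.1 x.2 hy with h1 | h1 | h1
      · exact regOld_of_base (hB.fam.reg q.1 hq.1 x hx h0) (exists_const_of_zero h1)
      · exact regOld_of_fst (h1 x.1 h0)
      · have hy' : 0 < ‖x.2‖ := norm_pos_iff.mpr hy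
        have hq2 : 0 < q.2 := lt_of_lt_of_le hα₀pos hq.2
        exact regOld_of_base (hB.fam.reg q.1 hq.1 x hx h0)
          (exists_const_of_indep hχ (hsub hq)
            (hG.indep q.1 hq.1 _ (mul_pos hq2 (hy'.trans_le h1))))
  -- regularity in the old variables, where the gate is closed
  have hreg1 : ∀ q ∈ s ×ˢ Ici α₀, ∀ x : E × ℂ, ∀ z : ℂ, 0 ≤ (attach B G χ q (x, z)).re →
      Shut s c G q.1 (q.2 * χ q.1 x.2) z → RegOld s B G χ q x z := by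
    intro q hq x z h0 h
    have h0' : 0 ≤ (B q.1 x).re + (G q.1 (q.2 * χ q.1 x.2) z).re := h0
    have hneg : (G q.1 (q.2 * χ q.1 x.2) z).re < 0 := h.1
    have hB0 : 0 < (B q.1 x).re := by linarith
    have hx : x ≠ 0 := by
      rintro rfl
      rw [(hB.fam.hom q.1 hq.1).zero] at hB0
      simp at hB0
    rcases h.2 with h | h
    · exact regOld_of_base (hB.fam.reg q.1 hq.1 x hx hB0.le)
        (exists_const_of_indep hχ (hsub hq) h)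
    · by_cases hy : x.2 = 0
      · have hX : x.1 ≠ 0 := fun e => hx (Prod.ext e hy)
        refine regOld_of_fst ?_
        rw [hy]
        refine hB.zreg q.1 hq.1 x.1 hX ?_
        have e : (x.1, (0 : ℂ)) = x := Prod.ext rfl hy.symm
        rw [e]
        exact hB0.le
      · rcases hχ.cases q.1 hq.1 x.2 hy with h1 | h1 | h1
        · exact regOld_of_base (hB.fam.reg q.1 hq.1 x hx hB0.le)
            (exists_const_of_zero h1)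
        · exact regOld_of_fst (h1 x.1 hB0.le)
        · exact regOld_of_fst (hkey q hq x hB0.le hy h1 (by linarith))
  have hcont : ContinuousOn (fun p : (Θ × ℝ) × ((E × ℂ) × ℂ) => attach B G χ p.1 p.2)
      ((s ×ˢ Ici α₀) ×ˢ univ) := by
    have h1 : ContinuousOn (fun p : (Θ × ℝ) × ((E × ℂ) × ℂ) => B p.1.1 p.2.1)
        ((s ×ˢ Ici α₀) ×ˢ univ) :=
      hB.fam.cont.comp (f := fun p : (Θ × ℝ) × ((E × ℂ) × ℂ) => (p.1.1, p.2.1))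
        (by exact (by fun_prop : Continuous fun p : (Θ × ℝ) × ((E × ℂ) × ℂ) =>
          (p.1.1, p.2.1)).continuousOn) (fun p hp => ⟨hp.1.1, mem_univ _⟩)
    have h2 : ContinuousOn (fun p : (Θ × ℝ) × ((E × ℂ) × ℂ) => χ p.1.1 p.2.1.2)
        ((s ×ˢ Ici α₀) ×ˢ univ) :=
      hχ.cont.comp (f := fun p : (Θ × ℝ) × ((E × ℂ) × ℂ) => (p.1.1, p.2.1.2))
        (by exact (by fun_prop : Continuous fun p : (Θ × ℝ) × ((E × ℂ) × ℂ) =>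
          (p.1.1, p.2.1.2)).continuousOn) (fun p hp => ⟨hp.1.1, mem_univ _⟩)
    have h3 : ContinuousOn (fun p : (Θ × ℝ) × ((E × ℂ) × ℂ) =>
        G p.1.1 (p.1.2 * χ p.1.1 p.2.1.2) p.2.2) ((s ×ˢ Ici α₀) ×ˢ univ) := by
      refine hG.cont.comp (f := fun p : (Θ × ℝ) × ((E × ℂ) × ℂ) =>
        (p.1.1, (p.1.2 * χ p.1.1 p.2.1.2, p.2.2))) ?_ ?_
      · refine ContinuousOn.prodMk (by fun_prop) (ContinuousOn.prodMk ?_ (by fun_prop))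
        exact ContinuousOn.mul (by fun_prop) h2
      · intro p hp
        exact ⟨hp.1.1, mul_nonneg (hsub hp.1).2 (hχ.nonneg _ hp.1.1 _), mem_univ _⟩
    exact h1.add h3
  refine ⟨⟨⟨hcont, ?_, ?_⟩, ?_⟩, ?_⟩
  · intro q hq r hr p
    have h1 : χ q.1 (r • p).1.2 = r * χ q.1 p.1.2 := hχ.hom q.1 hq.1 r hr p.1.2
    show B q.1 (r • p.1) + G q.1 (q.2 * χ q.1 (r • p).1.2) (r • p.2) = _
    rw [h1, hB.fam.hom q.1 hq.1 r hr, show q.2 * (r * χ q.1 p.1.2) = r * (q.2 * χ q.1 p.1.2) by ring,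
      hG.hom q.1 hq.1 r hr _ (mul_nonneg (hsub hq).2 (hχ.nonneg _ hq.1 _)), attach, smul_add]
  · rintro q hq ⟨x, z⟩ hne h0
    by_cases hz : z = 0
    · subst hz
      have hx : x ≠ 0 := by rintro rfl; exact hne rfl
      have h1 : 0 ≤ (B q.1 x).re := by
        have h2 : 0 ≤ (B q.1 x + G q.1 (q.2 * χ q.1 x.2) 0).re := h0
        rwa [hG.zero q.1 hq.1 _ (mul_nonneg (hsub hq).2 (hχ.nonneg _ hq.1 _)), add_zero] at h2
      exact RegAt.fst ((hreg0 q hq x hx h1).mono (prod_mono hsub Subset.rfl))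
    · have hd : 0 ≤ q.2 * χ q.1 x.2 := mul_nonneg (hsub hq).2 (hχ.nonneg _ hq.1 _)
      rcases hG.cases q.1 hq.1 _ hd z hz with h1 | h1
      · refine RegAt.snd ?_
        have h2 : RegAt ((s ×ˢ Ici α₀) ×ˢ (univ : Set (E × ℂ)))
            (fun (p : (Θ × ℝ) × (E × ℂ)) z => G p.1.1 (p.1.2 * χ p.1.1 p.2.2) z) (q, x) z := by
          refine RegAt.param (s := s ×ˢ Ici (0 : ℝ))
            (φ := fun p : (Θ × ℝ) × (E × ℂ) => (p.1.1, p.1.2 * χ p.1.1 p.2.2))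
            (F := fun (p : Θ × ℝ) z => G p.1 p.2 z) (t := (q, x)) ?_ ?_ h1
          · refine ContinuousWithinAt.prodMk continuousWithinAt_fst.fst ?_
            refine continuousWithinAt_fst.snd.mul ?_
            exact ContinuousWithinAt.comp (g := fun p : Θ × ℂ => χ p.1 p.2)
              (f := fun r : (Θ × ℝ) × (E × ℂ) => (r.1.1, r.2.2))
              (hχ.cont (q.1, x.2) ⟨hq.1, mem_univ _⟩)
              (by exact (by fun_prop : Continuous fun r : (Θ × ℝ) × (E × ℂ) =>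
                (r.1.1, r.2.2)).continuousWithinAt)
              (fun r hr => ⟨hr.1.1, mem_univ _⟩)
          · exact fun p hp => ⟨hp.1.1, mul_nonneg (hsub hp.1).2 (hχ.nonneg _ hp.1.1 _)⟩
        exact h2.add_const fun p => B p.1.1 p.2
      · exact RegAt.fst ((hreg1 q hq x z h0 h1).mono (prod_mono hsub Subset.rfl))
  · intro q hq x hx h0
    have h1 : 0 ≤ (B q.1 x).re := by
      have h2 : 0 ≤ (B q.1 x + G q.1 (q.2 * χ q.1 x.2) 0).re := h0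
      rwa [hG.zero q.1 hq.1 _ (mul_nonneg (hsub hq).2 (hχ.nonneg _ hq.1 _)), add_zero] at h2
    exact (hreg0 q hq x hx h1).mono (prod_mono hsub Subset.rfl)
  · intro q hq z hz x h0
    have hd : 0 ≤ q.2 * χ q.1 x.2 := mul_nonneg (hsub hq).2 (hχ.nonneg _ hq.1 _)
    exact (hreg1 q hq x z h0 (hz _ hd)).mono (prod_mono hsub Subset.rfl)

/-- **Level lemma.** -/
theorem Gate.level [FiniteDimensional ℝ E] (hs : IsCompact s) (hB : Tame s L B)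
    (hχ : GateFun s B χ) (hG : Gate s c L' G) :
    ∃ α₀ > 0, Tame (s ×ˢ Ici α₀) L' (attach B G χ) ∧ ∀ q ∈ s ×ˢ Ici α₀, ∀ z : ℂ,
      (∀ d : ℝ, 0 ≤ d → Shut s c G q.1 d z) → CollarAt (s ×ˢ Ici α₀) (attach B G χ) q z := by
  obtain ⟨α₀, hα₀, h1, h2⟩ := XGate.level hs hB.toX hχ hG.toX
  refine ⟨α₀, hα₀, ⟨h1.fam, ?_, h1.zreg⟩, h2⟩
  intro q hq x z z'
  show ‖B q.1 x + G q.1 (q.2 * χ q.1 x.2) z - (B q.1 x + G q.1 (q.2 * χ q.1 x.2) z')‖ ≤ _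
  rw [add_sub_add_left_eq_sub]
  exact hG.lip q.1 hq.1 _ (mul_nonneg (hα₀.le.trans hq.2) (hχ.nonneg _ hq.1 _)) z z'

/-- The end of a level splits near the points where the new gate does not depend on `d` and has
negative real part. -/
theorem splitAt_attach {α₀ : ℝ} (hα₀ : 0 ≤ α₀) (hT : HFam s B) (hχ : GateFun s B χ)
    {q₀ : Θ × ℝ} {z₀ : ℂ} (hneg : (G q₀.1 0 z₀).re < 0)
    (h : ∃ U ∈ 𝓝 z₀, ∀ᶠ t in 𝓝[s] q₀.1, ∀ z ∈ U, ∀ d : ℝ, 0 ≤ d → G t d z = G t 0 z) :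
    SplitAt (s ×ˢ Ici α₀) (attach B G χ) q₀ z₀ := by
  obtain ⟨U, hU, hev⟩ := h
  refine ⟨fun q => B q.1, hT.param continuousOn_fst fun q hq => hq.1,
    fun q z => G q.1 0 z, hneg, U, hU, ?_⟩
  have h1 : Tendsto Prod.fst (𝓝[s ×ˢ Ici α₀] q₀) (𝓝[s] q₀.1) := by
    have h2 : ContinuousWithinAt Prod.fst (s ×ˢ Ici α₀) q₀ := continuousWithinAt_fst
    exact h2.tendsto_nhdsWithin fun p hp => hp.1
  filter_upwards [h1.eventually hev, self_mem_nhdsWithin] with q e1 e2 z hz x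
  show B q.1 x + G q.1 (q.2 * χ q.1 x.2) z = B q.1 x + G q.1 0 z
  rw [e1 z hz _ (mul_nonneg (hα₀.trans e2.2) (hχ.nonneg _ e2.1 _))]

end Level

/-- Changing the parameters of a gate function. -/
theorem GateFun.param {Θ' : Type*} [TopologicalSpace Θ'] {s : Set Θ} {s' : Set Θ'}
    {B : Θ → E × ℂ → ℂ} {χ : Θ → ℂ → ℝ} (h : GateFun s B χ) {φ : Θ' → Θ}
    (hφ : ContinuousOn φ s') (hs : MapsTo φ s' s) :
    GateFun s' (fun t => B (φ t)) (fun t => χ (φ t)) where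
  cont := h.cont.comp (f := fun p : Θ' × ℂ => (φ p.1, p.2))
    ((hφ.comp continuousOn_fst fun p hp => hp.1).prodMk continuousOn_snd)
    (fun p hp => ⟨hs hp.1, mem_univ _⟩)
  hom := fun t ht => h.hom _ (hs ht)
  nonneg := fun t ht => h.nonneg _ (hs ht)
  cases := fun t ht y hy => by
    have h1 : Tendsto φ (𝓝[s'] t) (𝓝[s] (φ t)) := (hφ t ht).tendsto_nhdsWithin hs
    rcases h.cases _ (hs ht) y hy with ⟨U, hU, hev⟩ | h2 | h2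
    · exact Or.inl ⟨U, hU, h1.eventually hev⟩
    · refine Or.inr (Or.inl fun X h0 => ?_)
      refine RegAt.param (s := s ×ˢ (univ : Set ℂ)) (φ := fun p : Θ' × ℂ => (φ p.1, p.2))
        (F := fun (p : Θ × ℂ) X => B p.1 (X, p.2)) (t := (t, y)) ?_
        (fun p hp => ⟨hs hp.1, mem_univ _⟩) (h2 X h0)
      exact ContinuousWithinAt.prodMk ((hφ t ht).comp continuousWithinAt_fst fun p hp => hp.1)
        continuousWithinAt_snd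
    · exact Or.inr (Or.inr h2)

/-- Changing the parameters of a gate. -/
theorem Gate.param {Θ' : Type*} [TopologicalSpace Θ'] {s : Set Θ} {s' : Set Θ'} {c L : ℝ}
    {G : Θ → ℝ → ℂ → ℂ} (h : Gate s c L G) {φ : Θ' → Θ} (hφ : ContinuousOn φ s')
    (hs : MapsTo φ s' s) : Gate s' c L (fun t => G (φ t)) := by
  have key : ∀ t ∈ s', ∀ z : ℂ, Tendsto (fun p : Θ' × ℂ => (φ p.1, p.2))
      (𝓝[s' ×ˢ (univ : Set ℂ)] (t, z)) (𝓝[s ×ˢ (univ : Set ℂ)] (φ t, z)) := by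
    intro t ht z
    have h1 : ContinuousWithinAt (fun p : Θ' × ℂ => (φ p.1, p.2)) (s' ×ˢ (univ : Set ℂ)) (t, z) :=
      ContinuousWithinAt.prodMk ((hφ t ht).comp continuousWithinAt_fst fun p hp => hp.1)
        continuousWithinAt_snd
    exact h1.tendsto_nhdsWithin fun p hp => ⟨hs hp.1, mem_univ _⟩
  have hind : ∀ t ∈ s', ∀ d z, Indep s G (φ t) d z → Indep s' (fun t => G (φ t)) t d z := by
    rintro t ht d z ⟨D, hD, hev⟩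
    exact ⟨D, hD, (key t ht z).eventually hev⟩
  refine ⟨h.cpos, ?_, fun t ht => h.hom _ (hs ht), fun t ht => h.zero _ (hs ht),
    fun t ht => h.lip _ (hs ht), fun t ht d hd => hind t ht d 0 (h.indep _ (hs ht) d hd),
    fun t ht d hd z hz => ?_⟩
  · refine h.cont.comp (f := fun p : Θ' × (ℝ × ℂ) => (φ p.1, p.2)) ?_ ?_
    · exact (hφ.comp continuousOn_fst fun p hp => hp.1).prodMk continuousOn_snd
    · exact fun p hp => ⟨hs hp.1, hp.2⟩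
  · rcases h.cases _ (hs ht) d hd z hz with h1 | ⟨h1, h2 | h2⟩
    · refine Or.inl (RegAt.param (s := s ×ˢ Ici (0 : ℝ)) (φ := fun p : Θ' × ℝ => (φ p.1, p.2))
        (F := fun (p : Θ × ℝ) z => G p.1 p.2 z) (t := (t, d)) ?_
        (fun p hp => ⟨hs hp.1, hp.2⟩) h1)
      exact ContinuousWithinAt.prodMk ((hφ t ht).comp continuousWithinAt_fst fun p hp => hp.1)
        continuousWithinAt_snd
    · exact Or.inr ⟨h1, Or.inl (hind t ht d z h2)⟩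
    · exact Or.inr ⟨h1, Or.inr h2⟩

/-- Planar families (no Lipschitz condition): saturated, and regular where the real part is
nonnegative. -/
structure XPlanar (s : Set Θ) (C : ℝ) (G : Θ → ℝ → ℂ → ℂ) : Prop where
  cpos : 0 < C
  cont : ContinuousOn (fun p : Θ × (ℝ × ℂ) => G p.1 p.2.1 p.2.2) (s ×ˢ (Ici 0 ×ˢ univ))
  hom : ∀ t ∈ s, ∀ r : ℝ, 0 ≤ r → ∀ d : ℝ, 0 ≤ d → ∀ z : ℂ, G t (r * d) (r • z) = r • G t d z
  zero : ∀ t ∈ s, ∀ d : ℝ, 0 ≤ d → G t d 0 = 0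
  sat : ∀ t ∈ s, ∀ (d : ℝ) (z : ℂ), C * ‖z‖ ≤ d → G t d z = G t (C * ‖z‖) z
  reg : ∀ t ∈ s, ∀ d : ℝ, 0 ≤ d → ∀ z : ℂ, z ≠ 0 → 0 ≤ (G t d z).re →
    RegAt (s ×ˢ Ici (0 : ℝ)) (fun (p : Θ × ℝ) z => G p.1 p.2 z) (t, d) z

/-- Planar families: saturated, and regular where the real part is nonnegative. -/
structure Planar (s : Set Θ) (C L : ℝ) (G : Θ → ℝ → ℂ → ℂ) : Prop where
  cpos : 0 < C
  cont : ContinuousOn (fun p : Θ × (ℝ × ℂ) => G p.1 p.2.1 p.2.2) (s ×ˢ (Ici 0 ×ˢ univ))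
  hom : ∀ t ∈ s, ∀ r : ℝ, 0 ≤ r → ∀ d : ℝ, 0 ≤ d → ∀ z : ℂ, G t (r * d) (r • z) = r • G t d z
  zero : ∀ t ∈ s, ∀ d : ℝ, 0 ≤ d → G t d 0 = 0
  lip : ∀ t ∈ s, ∀ d : ℝ, 0 ≤ d → ∀ z z' : ℂ, ‖G t d z - G t d z'‖ ≤ L * ‖z - z'‖
  sat : ∀ t ∈ s, ∀ (d : ℝ) (z : ℂ), C * ‖z‖ ≤ d → G t d z = G t (C * ‖z‖) z
  reg : ∀ t ∈ s, ∀ d : ℝ, 0 ≤ d → ∀ z : ℂ, z ≠ 0 → 0 ≤ (G t d z).re →
    RegAt (s ×ˢ Ici (0 : ℝ)) (fun (p : Θ × ℝ) z => G p.1 p.2 z) (t, d) z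

theorem Planar.toX {s : Set Θ} {C L : ℝ} {G : Θ → ℝ → ℂ → ℂ} (h : Planar s C L G) :
    XPlanar s C G :=
  ⟨h.cpos, h.cont, h.hom, h.zero, h.sat, h.reg⟩

theorem XPlanar.indep {s : Set Θ} {C : ℝ} {G : Θ → ℝ → ℂ → ℂ} (h : XPlanar s C G) {t : Θ}
    {d : ℝ} {z : ℂ} (hd : C * ‖z‖ < d) : Indep s G t d z := by
  refine ⟨Ioi ((C * ‖z‖ + d) / 2), Ioi_mem_nhds (by linarith), ?_⟩
  have h1 : ∀ᶠ z' : ℂ in 𝓝 z, C * ‖z'‖ < (C * ‖z‖ + d) / 2 := by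
    have h2 : ContinuousAt (fun z' : ℂ => C * ‖z'‖) z := by fun_prop
    exact h2.eventually (eventually_lt_nhds (by linarith))
  have h2 : ∀ᶠ p : Θ × ℂ in 𝓝[s ×ˢ (univ : Set ℂ)] (t, z), C * ‖p.2‖ < (C * ‖z‖ + d) / 2 := by
    have h3 : Tendsto Prod.snd (𝓝[s ×ˢ (univ : Set ℂ)] (t, z)) (𝓝 z) := continuousWithinAt_snd
    exact h3.eventually h1
  filter_upwards [h2, self_mem_nhdsWithin] with p hp hps d' hd' _
  have hd'' : (C * ‖z‖ + d) / 2 < d' := hd'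
  rw [h.sat p.1 hps.1 d' p.2 (by linarith), h.sat p.1 hps.1 d p.2 (by linarith)]

/-- Scaling of regular points of a planar family. -/
theorem XPlanar.reg_scale {s : Set Θ} {C : ℝ} {G : Θ → ℝ → ℂ → ℂ} (h : XPlanar s C G) {t : Θ}
    {d : ℝ} {z : ℂ} {r : ℝ} (hr : 0 < r)
    (hreg : RegAt (s ×ˢ Ici (0 : ℝ)) (fun (p : Θ × ℝ) z => G p.1 p.2 z) (t, r⁻¹ * d) (r⁻¹ • z)) :
    RegAt (s ×ˢ Ici (0 : ℝ)) (fun (p : Θ × ℝ) z => G p.1 p.2 z) (t, d) z := by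
  have h1 : RegAt (s ×ˢ Ici (0 : ℝ)) (fun (p : Θ × ℝ) z => G p.1 (r⁻¹ * p.2) z) (t, d)
      (r⁻¹ • z) := by
    refine RegAt.param (s := s ×ˢ Ici (0 : ℝ)) (φ := fun p : Θ × ℝ => (p.1, r⁻¹ * p.2))
      (F := fun (p : Θ × ℝ) z => G p.1 p.2 z) (t := (t, d)) ?_
      (fun p hp => ⟨hp.1, mul_nonneg (inv_nonneg.mpr hr.le) hp.2⟩) hreg
    exact (by fun_prop : Continuous fun p : Θ × ℝ => (p.1, r⁻¹ * p.2)).continuousWithinAt
  refine (h1.rescale hr).congr ⟨univ, univ_mem, ?_⟩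
  filter_upwards [self_mem_nhdsWithin] with p hp z' _
  rw [h.hom p.1 hp.1 _ (inv_nonneg.mpr hr.le) _ hp.2, smul_smul, mul_inv_cancel₀ hr.ne', one_smul]

/-- **Planar families over compact sets are gates**, with a constant which also works on a given
closed cone `S` over which all the real parts are negative. -/
theorem XPlanar.gate {s : Set Θ} (hs : IsCompact s) {C : ℝ} {G : Θ → ℝ → ℂ → ℂ}
    (h : XPlanar s C G) {S : Set (Θ × ℂ)} (hS : IsClosed S)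
    (hScone : ∀ p ∈ S, ∀ r : ℝ, 0 < r → (p.1, r • p.2) ∈ S)
    (hneg : ∀ p ∈ S, p.1 ∈ s → p.2 ≠ 0 → ∀ d : ℝ, 0 ≤ d → (G p.1 d p.2).re < 0) :
    ∃ c : ℝ, XGate s c G ∧ ∀ p ∈ S, p.1 ∈ s → p.2 ≠ 0 → ∀ d : ℝ, 0 ≤ d →
      Shut s c G p.1 d p.2 := by
  have hC := h.cpos
  let K : Set (Θ × (ℝ × ℂ)) := s ×ˢ (Icc 0 C ×ˢ Metric.sphere 0 1)
  have hK : IsCompact K := hs.prod (isCompact_Icc.prod (isCompact_sphere _ _))
  have hKsub : K ⊆ s ×ˢ (Ici 0 ×ˢ univ) :=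
    prod_mono Subset.rfl (prod_mono (fun x hx => hx.1) (subset_univ _))
  -- every point of `K` has a neighbourhood on which the claim holds
  let Q : ℝ → Θ × (ℝ × ℂ) → Prop := fun δ p =>
    ((¬ RegAt (s ×ˢ Ici (0 : ℝ)) (fun (q : Θ × ℝ) z => G q.1 q.2 z) (p.1, p.2.1) p.2.2) ∨
      (p.1, p.2.2) ∈ S) → (G p.1 p.2.1 p.2.2).re ≤ -δ
  have key : ∃ δ > 0, ∀ p ∈ K, Q δ p := by
    refine hK.induction_on (p := fun K => ∃ δ > 0, ∀ p ∈ K, Q δ p) ?_ ?_ ?_ ?_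
    · exact ⟨1, one_pos, fun p hp => absurd hp (notMem_empty p)⟩
    · rintro K K' hKK' ⟨δ, hδ, h⟩
      exact ⟨δ, hδ, fun p hp => h p (hKK' hp)⟩
    · rintro K K' ⟨δ, hδ, h⟩ ⟨δ', hδ', h'⟩
      refine ⟨min δ δ', lt_min hδ hδ', fun p hp hp' => ?_⟩
      rcases hp with hp | hp
      · exact (h p hp hp').trans (neg_le_neg (min_le_left _ _))
      · exact (h' p hp hp').trans (neg_le_neg (min_le_right _ _))
    · rintro p₀ hp₀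
      have hz₀ : p₀.2.2 ≠ 0 := by
        have h1 : ‖p₀.2.2‖ = 1 := mem_sphere_zero_iff_norm.mp hp₀.2.2
        intro e
        rw [e, norm_zero] at h1
        exact zero_ne_one h1
      rcases lt_or_ge (G p₀.1 p₀.2.1 p₀.2.2).re 0 with h0 | h0
      · have h1 : ContinuousWithinAt (fun p : Θ × (ℝ × ℂ) => (G p.1 p.2.1 p.2.2).re) K p₀ :=
          Complex.continuous_re.continuousAt.comp_continuousWithinAt
            ((h.cont p₀ (hKsub hp₀)).mono hKsub)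
        refine ⟨{p | (G p.1 p.2.1 p.2.2).re < (G p₀.1 p₀.2.1 p₀.2.2).re / 2},
          h1.eventually (eventually_lt_nhds (by linarith)), _, half_pos (neg_pos.mpr h0),
          fun p hp _ => ?_⟩
        have : (G p.1 p.2.1 p.2.2).re < (G p₀.1 p₀.2.1 p₀.2.2).re / 2 := hp
        linarith
      · have h1 := (h.reg p₀.1 hp₀.1 p₀.2.1 hp₀.2.1.1 p₀.2.2 hz₀ h0).eventually_near
        have h2 : Tendsto (fun p : Θ × (ℝ × ℂ) => ((p.1, p.2.1), p.2.2)) (𝓝[K] p₀)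
            (𝓝[s ×ˢ Ici (0 : ℝ)] (p₀.1, p₀.2.1) ×ˢ 𝓝 p₀.2.2) := by
          refine Tendsto.prodMk ?_ ?_
          · have h3 : ContinuousWithinAt (fun p : Θ × (ℝ × ℂ) => (p.1, p.2.1)) K p₀ := by
              exact (by fun_prop : Continuous fun p : Θ × (ℝ × ℂ) =>
                (p.1, p.2.1)).continuousWithinAt
            exact h3.tendsto_nhdsWithin fun p hp => ⟨hp.1, hp.2.1.1⟩
          · exact (by fun_prop : Continuous fun p : Θ × (ℝ × ℂ) => p.2.2).continuousWithinAt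
        have h3 : ∀ᶠ p : Θ × (ℝ × ℂ) in 𝓝[K] p₀, (p.1, p.2.2) ∉ S := by
          have h4 : (p₀.1, p₀.2.2) ∉ S := fun hmem =>
            absurd (hneg _ hmem hp₀.1 hz₀ p₀.2.1 hp₀.2.1.1) (not_lt.mpr h0)
          have h5 : ContinuousAt (fun p : Θ × (ℝ × ℂ) => (p.1, p.2.2)) p₀ := by fun_prop
          exact nhdsWithin_le_nhds (h5.eventually (hS.isOpen_compl.mem_nhds h4))
        refine ⟨_, (h2.eventually h1).and h3, 1, one_pos, fun p hp hp' => ?_⟩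
        rcases hp' with hp' | hp'
        · exact absurd hp.1 hp'
        · exact absurd hp' hp.2
  obtain ⟨δ, hδ, hδK⟩ := key
  -- the two alternatives
  have key2 : ∀ t ∈ s, ∀ d : ℝ, 0 ≤ d → ∀ z : ℂ, z ≠ 0 →
      ((¬ RegAt (s ×ˢ Ici (0 : ℝ)) (fun (q : Θ × ℝ) z => G q.1 q.2 z) (t, d) z) ∨
        (t, z) ∈ S) → Shut s (δ / C) G t d z := by
    intro t ht d hd z hz hdz
    have hlt : (G t d z).re < 0 := by
      rcases hdz with hdz | hdz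
      · by_contra hcon
        exact hdz (h.reg t ht d hd z hz (not_lt.mp hcon))
      · exact hneg _ hdz ht hz d hd
    refine ⟨hlt, ?_⟩
    rcases lt_or_ge (C * ‖z‖) d with h1 | h1
    · exact Or.inl (h.indep h1)
    · refine Or.inr ?_
      have hz' : 0 < ‖z‖ := norm_pos_iff.mpr hz
      have h2 : (t, (‖z‖⁻¹ * d, ‖z‖⁻¹ • z)) ∈ K := by
        refine ⟨ht, ⟨mul_nonneg (inv_nonneg.mpr hz'.le) hd, ?_⟩, ?_⟩
        · rw [inv_mul_le_iff₀ hz']; linarith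
        · rw [mem_sphere_zero_iff_norm, norm_smul, norm_inv, norm_norm, inv_mul_cancel₀ hz'.ne']
      have h3 := hδK _ h2 (by
        rcases hdz with hdz | hdz
        · exact Or.inl fun hcon => hdz (h.reg_scale hz' hcon)
        · exact Or.inr (hScone _ hdz _ (inv_pos.mpr hz')))
      have h4 : (G t (‖z‖⁻¹ * d) (‖z‖⁻¹ • z)).re = ‖z‖⁻¹ * (G t d z).re := by
        rw [h.hom t ht _ (inv_nonneg.mpr hz'.le) d hd z, Complex.real_smul, Complex.re_ofReal_mul]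
      have h5 : ‖z‖⁻¹ * (G t d z).re ≤ -δ := by
        rw [← h4]; exact h3
      rw [inv_mul_le_iff₀ hz'] at h5
      have h6 : δ / C * d ≤ δ / C * (C * ‖z‖) := mul_le_mul_of_nonneg_left h1 (by positivity)
      have h7 : δ / C * (C * ‖z‖) = ‖z‖ * δ := by field_simp
      linarith
  refine ⟨δ / C, ⟨by positivity, h.cont, h.hom, h.zero, fun t ht d hd => ?_,
    fun t ht d hd z hz => ?_⟩, fun p hp hps hz d hd => ?_⟩
  · exact h.indep (by simpa using hd)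
  · by_cases hcon : RegAt (s ×ˢ Ici (0 : ℝ)) (fun (q : Θ × ℝ) z => G q.1 q.2 z) (t, d) z
    · exact Or.inl hcon
    · exact Or.inr (key2 t ht d hd z hz (Or.inl hcon))
  · exact key2 p.1 hps d hd p.2 hz (Or.inr hp)

theorem Planar.gate {s : Set Θ} (hs : IsCompact s) {C L : ℝ} {G : Θ → ℝ → ℂ → ℂ}
    (h : Planar s C L G) {S : Set (Θ × ℂ)} (hS : IsClosed S)
    (hScone : ∀ p ∈ S, ∀ r : ℝ, 0 < r → (p.1, r • p.2) ∈ S)
    (hneg : ∀ p ∈ S, p.1 ∈ s → p.2 ≠ 0 → ∀ d : ℝ, 0 ≤ d → (G p.1 d p.2).re < 0) :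
    ∃ c : ℝ, Gate s c L G ∧ ∀ p ∈ S, p.1 ∈ s → p.2 ≠ 0 → ∀ d : ℝ, 0 ≤ d →
      Shut s c G p.1 d p.2 := by
  obtain ⟨c, h1, h2⟩ := h.toX.gate hs hS hScone hneg
  exact ⟨c, ⟨h1.cpos, h1.cont, h1.hom, h1.zero, h.lip, h1.indep, h1.cases⟩, h2⟩

end Vale.Agent.P268.T
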