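import Vale.Agent.P268.T.H69.Stages

/-!
# P268, topological half, route V: the stage from the real gates to the rays

`stageD`: the planar families `stepD` with the cut-off functions `eta (a + 1) (P1 (a + 1) (arg z))`
form a stage; at time `0` they are the real gates of the ray functions, at time `1` the gates of the
ray form.
-/

set_option linter.unusedSectionVars false

namespace Vale.Agent.P268.T

open Set Filter Topology

/-! ### The index function near the rays -/

/-- The index function `P` is near `k + 1` near the ray `k`, and near `Tℤ` near the negative real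
axis. -/
structure RayNear (δ : ℝ) (T : ℕ) (P : ℝ → ℝ) : Prop where
  ray : ∀ (k : ℕ) (z : ℂ), k + 2 ≤ T → 0 < z.re → |z.im - k * z.re| ≤ δ * z.re →
    |P (Complex.arg z) - (k + 1)| < 3 / 10
  neg : ∀ z : ℂ, z.re < 0 → |z.im| ≤ δ * -z.re → ∃ m : ℤ, |P (Complex.arg z) - m * T| < 3 / 10

theorem RayNear.mono {δ δ' : ℝ} {T : ℕ} {P : ℝ → ℝ} (h : RayNear δ T P) (hd : δ' ≤ δ) :
    RayNear δ' T P := by
  refine ⟨fun k z hk h0 hz => h.ray k z hk h0 (hz.trans ?_), fun z h0 hz => h.neg z h0
    (hz.trans ?_)⟩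
  · exact mul_le_mul_of_nonneg_right hd h0.le
  · exact mul_le_mul_of_nonneg_right hd (by linarith)

theorem abs_arctan_sub_le (x y : ℝ) : |Real.arctan x - Real.arctan y| ≤ |x - y| := by
  have h1 : ∀ x y : ℝ, x ≤ y → Real.arctan y - Real.arctan x ≤ y - x := by
    intro x y hxy
    have h2 : Monotone fun x : ℝ => x - Real.arctan x := by
      refine monotone_of_deriv_nonneg (differentiable_id.sub Real.differentiable_arctan)
        fun x => ?_
      have h3 : HasDerivAt (fun x : ℝ => x - Real.arctan x) (1 - 1 / (1 + x ^ 2)) x :=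
        (hasDerivAt_id x).sub (Real.hasDerivAt_arctan x)
      rw [h3.deriv, sub_nonneg, div_le_one (by positivity)]
      nlinarith [sq_nonneg x]
    have := h2 hxy
    simp only at this
    linarith
  rcases le_total x y with h | h
  · rw [abs_sub_comm, abs_of_nonneg (by linarith [Real.arctan_strictMono.monotone h]),
      abs_sub_comm x y, abs_of_nonneg (by linarith)]
    exact h1 x y h
  · rw [abs_of_nonneg (by linarith [Real.arctan_strictMono.monotone h]),
      abs_of_nonneg (by linarith)]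
    exact h1 y x h

theorem arg_of_re_pos {z : ℂ} (h : 0 < z.re) : Complex.arg z = Real.arctan (z.im / z.re) := by
  have h3 := abs_lt.mp (Complex.abs_arg_lt_pi_div_two_iff.mpr (Or.inl h))
  rw [← Complex.tan_arg z, Real.arctan_tan h3.1 h3.2]

theorem add_int_mul_of_add {P : ℝ → ℝ} {T : ℕ} (h : ∀ θ, P (θ + 2 * Real.pi) = P θ + T) (θ : ℝ)
    (k : ℤ) : P (θ + k * (2 * Real.pi)) = P θ + k * T := by
  have hp := Real.pi_pos
  have h1 : Function.Periodic (fun θ => P θ - T * (θ / (2 * Real.pi))) (2 * Real.pi) := by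
    intro θ
    show P (θ + 2 * Real.pi) - T * ((θ + 2 * Real.pi) / (2 * Real.pi)) = _
    rw [h, add_div, div_self (by positivity)]
    ring
  have h2 := h1.int_mul k θ
  have h3 : (θ + k * (2 * Real.pi)) / (2 * Real.pi) = θ / (2 * Real.pi) + k := by
    rw [add_div, mul_div_cancel_right₀ _ (by positivity)]
  simp only [h3] at h2
  linarith

/-- Lipschitz index functions with the right values at the rays. -/
theorem RayNear.of_cen {T : ℕ} (hT : 2 ≤ T) {P : ℝ → ℝ} {L δ : ℝ} (hL : 0 ≤ L)
    (hlip : ∀ x y, |P x - P y| ≤ L * |x - y|) (hadd : ∀ θ, P (θ + 2 * Real.pi) = P θ + T)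
    (hcen : ∀ j : ℤ, P (cen (T : ℤ) j) = j + 1) (hδ : L * δ < 3 / 10) : RayNear δ T P := by
  have hT' : (2 : ℤ) ≤ (T : ℤ) := by exact_mod_cast hT
  constructor
  · intro k z hk h0 hz
    have h1 : |Complex.arg z - Real.arctan k| ≤ δ := by
      rw [arg_of_re_pos h0]
      refine (abs_arctan_sub_le _ _).trans ?_
      have h2 : z.im / z.re - k = (z.im - k * z.re) / z.re := by field_simp
      rw [h2, abs_div, abs_of_pos h0, div_le_iff₀ h0]
      exact hz
    have h2 := hcen k
    rw [cen_of_lt (by omega) (by omega)] at h2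
    have h3 := hlip (Complex.arg z) (Real.arctan ((k : ℤ) : ℝ))
    rw [h2] at h3
    rw [Int.cast_natCast] at h3
    exact lt_of_le_of_lt (h3.trans (mul_le_mul_of_nonneg_left h1 hL)) hδ
  · intro z h0 hz
    have hz0 : z ≠ 0 := fun h => by rw [h] at h0; exact lt_irrefl _ h0
    have h1 : |Complex.arg (-z)| ≤ δ := by
      have h3 : 0 < (-z).re := by rw [Complex.neg_re]; linarith
      rw [arg_of_re_pos h3]
      have h4 := abs_arctan_sub_le ((-z).im / (-z).re) 0
      rw [Real.arctan_zero, sub_zero, sub_zero] at h4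
      refine h4.trans ?_
      rw [abs_div, abs_of_pos h3, div_le_iff₀ h3, Complex.neg_im, abs_neg, Complex.neg_re]
      exact hz
    have h2 : ((Complex.arg z : ℝ) : Real.Angle) = ((Complex.arg (-z) + Real.pi : ℝ) : Real.Angle) := by
      rw [Real.Angle.coe_add]
      have := Complex.arg_neg_coe_angle (x := -z) (neg_ne_zero.mpr hz0)
      rwa [neg_neg] at this
    obtain ⟨k, hk⟩ := Real.Angle.angle_eq_iff_two_pi_dvd_sub.mp h2
    have h3 : Complex.arg z = Complex.arg (-z) + Real.pi + k * (2 * Real.pi) := by linarith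
    refine ⟨k + 1, ?_⟩
    have h4 := hcen ((T : ℤ) - 1)
    rw [cen_last hT'] at h4
    push_cast at h4
    rw [sub_add_cancel] at h4
    have h5 := hlip (Complex.arg (-z) + Real.pi) Real.pi
    rw [h4, add_sub_cancel_right] at h5
    rw [h3, add_int_mul_of_add hadd]
    have h6 : P (Complex.arg (-z) + Real.pi) + k * T - ((k + 1 : ℤ) : ℝ) * T =
        P (Complex.arg (-z) + Real.pi) - T := by push_cast; ring
    rw [h6]
    exact lt_of_le_of_lt (h5.trans (mul_le_mul_of_nonneg_left h1 hL)) hδ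

theorem exists_rayNear (N : ℕ) : ∃ δ > 0, ∀ T, 2 ≤ T → T ≤ N → RayNear δ T (P1 T) := by
  induction N with
  | zero => exact ⟨1, one_pos, fun T h1 h2 => by omega⟩
  | succ N ih =>
    obtain ⟨δ, hδ, h⟩ := ih
    rcases Nat.lt_or_ge (N + 1) 2 with hN | hN
    · exact ⟨1, one_pos, fun T h1 h2 => by omega⟩
    · obtain ⟨L, hL⟩ := P1_lip hN
      have h0 : (0 : ℝ) < |L| + 1 := by positivity
      refine ⟨min δ (1 / 4 / (|L| + 1)), lt_min hδ (by positivity), fun T h1 h2 => ?_⟩
      rcases Nat.lt_or_ge N T with h3 | h3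
      · have h4 : T = N + 1 := by omega
        subst h4
        refine RayNear.of_cen hN h0.le (fun x y => (hL x y).trans ?_) (P1_add hN) (P1_cen hN) ?_
        · exact mul_le_mul_of_nonneg_right (by linarith [le_abs_self L]) (abs_nonneg _)
        · calc (|L| + 1) * min δ (1 / 4 / (|L| + 1)) ≤ (|L| + 1) * (1 / 4 / (|L| + 1)) :=
                mul_le_mul_of_nonneg_left (min_le_right _ _) h0.le
            _ = 1 / 4 := by field_simp
            _ < 3 / 10 := by norm_num
      · exact (h T h1 h3).mono (min_le_left _ _)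

/-! ### The cut-off functions -/

theorem RayNear.cutOff {δ : ℝ} {T n : ℕ} (hn : n + 3 = T) {P : ℝ → ℝ} (h : RayNear δ T P)
    (hc : Continuous P) (hadd : ∀ θ, P (θ + 2 * Real.pi) = P θ + T) :
    CutOff δ n (fun z => eta T (P (Complex.arg z))) where
  cont := fun z hz => by
    have hT : 0 < T := by omega
    have h1 := C830.continuousWithinAt_arg (T := Unit) (s := univ)
      (g := fun _ θ => eta T (P θ)) (((continuous_eta T).comp hc).comp continuous_snd).continuousOn
      (fun _ _ θ => by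
        show eta T (P (θ + 2 * Real.pi)) = eta T (P θ)
        rw [hadd]
        have := eta_add hT (P θ) 1
        rwa [Int.cast_one, one_mul] at this) (mem_univ ()) hz
    rw [univ_prod_univ, continuousWithinAt_univ] at h1
    exact ContinuousAt.comp (x := z) (f := fun z : ℂ => ((), z))
      (g := fun p : Unit × ℂ => eta T (P (Complex.arg p.2))) h1 (by fun_prop)
  hom := fun r hr z => by rw [arg_smul_pos hr]
  nonneg := fun z => eta_nonneg _ _
  le_one := fun z => eta_le_one _ _
  left := fun z h0 hz => by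
    obtain ⟨m, hm⟩ := h.neg z h0 hz
    have hT : 0 < T := by omega
    have h1 : eta T (P (Complex.arg z)) = eta T (P (Complex.arg z) - m * T) := by
      have := eta_add hT (P (Complex.arg z) - m * T) m
      rwa [sub_add_cancel] at this
    rw [h1]
    refine eta_zero hT (k := 0) (by omega) ?_
    rw [Nat.cast_zero, sub_zero]
    exact hm.le
  zero := fun k z hk h0 hz => by
    refine eta_zero (by omega) (k := k + 1) (by omega) ?_
    push_cast
    exact (h.ray k z (by omega) h0 hz).le
  one := fun z h0 hz => by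
    refine eta_one (by omega) (k := n + 2) (by omega) ?_
    have := (h.ray (n + 1) z (by omega) h0 hz).le
    push_cast at this ⊢
    rw [show ((n : ℝ) + 2) = n + 1 + 1 by ring]
    exact this

/-! ### The ungated rays -/

/-- Near the zeros of the ray function the index is near the integers. -/
theorem RayNear.neg_of_dZ {δ ε : ℝ} (hδ : 2 * ε < δ) {T n : ℕ} (hn : n + 2 ≤ T) {P : ℝ → ℝ}
    (h : RayNear δ T P) {z : ℂ} (hz : z ≠ 0) (hd : 3 / 10 ≤ dZ (P (Complex.arg z))) :
    rm ε n z < 0 := by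
  by_contra hcon
  rcases near_ray hz (not_lt.mp hcon) with ⟨h1, h2⟩ | ⟨h1, k, hk, h2⟩
  · obtain ⟨m, hm⟩ := h.neg z h1 (h2.trans (by nlinarith))
    have h3 := dZ_le (P (Complex.arg z)) (m * T)
    push_cast at h3
    linarith
  · have hm := h.ray k z (by omega) h1 (h2.trans (by nlinarith))
    have h3 := dZ_le (P (Complex.arg z)) (k + 1)
    push_cast at h3
    linarith

theorem hFam_rm {Θ : Type*} [TopologicalSpace Θ] (s : Set Θ) {ε : ℝ} (hε : 0 < ε) (hε' : ε < 1 / 8)
    (n : ℕ) : HFam s (fun _ z => (⟨rm ε n z, turn z⟩ : ℂ)) := by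
  refine ⟨?_, fun t _ r hr z => ?_, fun t ht z hz h0 => ?_⟩
  · have h1 := continuous_rm ε n
    have h2 := continuous_turn'
    have h3 : Continuous fun p : Θ × ℂ => (⟨rm ε n p.2, turn p.2⟩ : ℂ) :=
      Complex.equivRealProdCLM.symm.continuous.comp
        ((h1.comp continuous_snd).prodMk (h2.comp continuous_snd))
    exact h3.continuousOn
  · apply Complex.ext
    · show rm ε n (r • z) = _
      rw [rm_smul ε n hr, Complex.smul_re, smul_eq_mul]
    · show turn (r • z) = _
      rw [turn_smul' hr, Complex.smul_im, smul_eq_mul]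
  · rcases near_ray hz h0 with ⟨h1, h2⟩ | ⟨h1, k, hk, h2⟩
    · have h3 : |z.im| < -z.re / 4 := lt_of_le_of_lt h2 (by nlinarith)
      refine regAt_ray_neg (k := 0) hε h1 h3 (fun _ => 0) ⟨{w | w.re < 0},
        Complex.continuous_re.continuousAt.eventually (gt_mem_nhds h1), ?_⟩
      filter_upwards with p w hw
      have h5 : rm ε n w = ray ε 0 w := rm_of_neg (le_of_lt hw) 0
      rw [h5, add_zero]
    · have h3 : |z.im - k * z.re| < z.re / 4 := lt_of_le_of_lt h2 (by nlinarith)
      have e1 : ∀ᶠ w : ℂ in 𝓝 z, 0 < w.re := Complex.continuous_re.continuousAt.eventually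
        (lt_mem_nhds h1)
      have e2 : ∀ᶠ w : ℂ in 𝓝 z, |w.im - k * w.re| < w.re / 4 := by
        have h5 : ContinuousAt (fun w : ℂ => |w.im - k * w.re|) z := by fun_prop
        have h6 : ContinuousAt (fun w : ℂ => w.re / 4) z := by fun_prop
        exact h5.eventually_lt h6 h3
      refine regAt_ray_pos (k := k) hε h1 h3 (fun _ => 0)
        ⟨{w | 0 < w.re ∧ |w.im - k * w.re| < w.re / 4}, e1.and e2, ?_⟩
      filter_upwards with p w hw
      rw [rm_of_near hk hw.1 hw.2, add_zero]

/-! ### The stage -/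

/-- The planar families of the stage. -/
noncomputable def gateD (ε : ℝ) (P : ℕ → ℝ → ℝ) (a : ℕ) (t q : ℝ) (z : ℂ) : ℂ :=
  stepD ε (a - 2) 2 (fun z => eta (a + 1) (P (a + 1) (Complex.arg z))) t q z

/-- **Stage (D)**: from the real gates to the gates of the ray form. -/
theorem stageD_of {N : ℕ} {P : ℕ → ℝ → ℝ} {δ ε : ℝ} (hε : 0 < ε) (hε' : ε < 1 / 8)
    (hδ : 2 * ε < δ) (hc : ∀ A, 2 ≤ A → A ≤ N → Continuous (P A))
    (hadd : ∀ A, 2 ≤ A → A ≤ N → ∀ θ, P A (θ + 2 * Real.pi) = P A θ + A)
    (hP : ∀ A, 2 ≤ A → A ≤ N → RayNear δ A (P A)) :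
    Stage N (fun A _ => P A) (fun a T _ θ => mark a T (P T θ)) (fun a _ => RV.rayFirst ε a)
      (gateD ε P) where
  Pcont := fun A h2 hN => (hc A h2 hN).comp continuous_snd
  Pper := fun A h2 hN _ => hadd A h2 hN
  mark := fun a T h2 haT hN => MarkData.of_mark (P := fun _ => P T) (by omega)
    ((hc T (by omega) hN).comp continuous_snd) (fun _ => hadd T (by omega) hN)
  first := fun a h2 hN => by
    have h1 : (fun (_ : ℝ) z => RV.rayFirst ε a z) =
        fun _ z => (⟨rm ε (a - 2) z, turn z⟩ : ℂ) := by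
      funext _ z
      rw [RV.rayFirst, r1_eq_rm h2]
    exact h1 ▸ hFam_rm _ hε hε' _
  first_neg := fun a h2 hN t _ z hz hd => by
    show RV.r1 ε a z < 0
    rw [r1_eq_rm h2]
    exact (hP a h2 hN.le).neg_of_dZ hδ (by omega) hz hd
  planar := fun a h2 hN => ⟨1, xplanar_stepD hε hε' hδ one_le_two
    ((hP (a + 1) (by omega) hN).cutOff (by omega) (hc (a + 1) (by omega) hN)
      (hadd (a + 1) (by omega) hN))⟩
  neg := fun a h2 hN t ht z hz hd q hq =>
    (stepD_re_le zero_le_two (fun _ => eta_nonneg _ _) ht hq z).trans_lt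
      ((hP (a + 1) (by omega) hN).neg_of_dZ hδ (by omega) hz hd)

/-- **Stage (D)** for the index functions `P1`. -/
theorem exists_stageD (N : ℕ) : ∃ δ > 0, (∀ T, 2 ≤ T → T ≤ N → RayNear δ T (P1 T)) ∧
    ∃ ε₁ > 0, ∀ ε ∈ Ioc (0 : ℝ) ε₁, Stage N (fun A _ => P1 A)
      (fun a T _ θ => mark a T (P1 T θ)) (fun a _ => RV.rayFirst ε a) (gateD ε P1) := by
  obtain ⟨δ, hδ, h⟩ := exists_rayNear N
  refine ⟨δ, hδ, h, min (1 / 9) (δ / 3), lt_min (by norm_num) (by positivity), fun ε hε => ?_⟩
  have h1 : ε ≤ 1 / 9 := hε.2.trans (min_le_left _ _)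
  have h2 : ε ≤ δ / 3 := hε.2.trans (min_le_right _ _)
  exact stageD_of hε.1 (by linarith) (by linarith) (fun A h2 _ => continuous_P1 h2)
    (fun A h2 _ => P1_add h2) h

/-! ### The ends -/

/-- The start of the stage: the real gates. -/
theorem gateD_zero (ε : ℝ) (P : ℕ → ℝ → ℝ) {a : ℕ} (ha : 2 ≤ a) (t q : ℝ) (z : ℂ) :
    gateD ε P a 0 q z =
      realG (a + 1) (fun _ => gS ε (KA69 (a + 1))) (fun _ => P (a + 1)) t q z := by
  have h1 : a + 1 - 2 = a - 2 + 1 := by omega
  rw [realG, pol_gS, FS1_KA, h1]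
  apply Complex.ext
  · rw [Complex.sub_re, Complex.ofReal_re]
    show (1 - 0) * (rm ε (a - 2 + 1) z - 2 * eta (a + 1) (P (a + 1) (Complex.arg z)) *
      min q ‖z‖) + 0 * _ = _
    ring
  · rw [Complex.sub_im, Complex.ofReal_im, sub_zero]
    rfl

/-- The end of the stage. -/
theorem gateD_one (ε : ℝ) (P : ℕ → ℝ → ℝ) {a : ℕ} (ha : 2 ≤ a) (q : ℝ) (z : ℂ) :
    gateD ε P a 1 q z = RV.rayGate ε a q z := by
  rw [RV.rayGate, r1_eq_rm ha]
  have h1 : a - 1 = a - 2 + 1 := by omega
  apply Complex.ext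
  · show (1 - 1) * _ + 1 * max (rm ε (a - 2) z) (ray ε (a - 2 + 1 : ℕ) z - q) = _
    rw [h1]
    ring
  · rfl

end Vale.Agent.P268.T
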