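import Vale.Agent.P268.T.H500.FSide
import Vale.Agent.P268.T.H830.Level

/-!
# P268, topological half: from the real gate to the maximum

The planar family `((1 - t) (R z - C η(z) min(q, |z|)) + t max (r₁ z) (r₂ z - q), turn z)`, where
`r₂` is the last ray, `r₁` is the maximum of the other rays and `R = max r₁ r₂`.
-/

set_option linter.unusedSectionVars false

namespace Vale.Agent.P268.T

open Set Filter Topology

/-! ### Regularity near a ray -/

/-- A family which near `z₀` is the ray `k` plus a function of the parameters. -/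
theorem regAt_ray_pos {P : Type*} [TopologicalSpace P] {S : Set P} {f : P → ℂ → ℂ} {p₀ : P}
    {z₀ : ℂ} {ε : ℝ} (hε : 0 < ε) {k : ℕ} (h0 : 0 < z₀.re)
    (h : |z₀.im - k * z₀.re| < z₀.re / 4) (g : P → ℝ)
    (hf : ∃ U ∈ 𝓝 z₀, ∀ᶠ p in 𝓝[S] p₀, ∀ z ∈ U, f p z = ⟨ray ε k z + g p, turn z⟩) :
    RegAt S f p₀ z₀ := by
  obtain ⟨U, hU, hev⟩ := hf
  have e1 : ∀ᶠ z : ℂ in 𝓝 z₀, 0 < z.re := Complex.continuous_re.continuousAt.eventually
    (lt_mem_nhds h0)
  have e2 : ∀ᶠ z : ℂ in 𝓝 z₀, |z.im - k * z.re| < z.re / 4 := by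
    have h1 : ContinuousAt (fun z : ℂ => |z.im - k * z.re|) z₀ := by fun_prop
    have h2 : ContinuousAt (fun z : ℂ => z.re / 4) z₀ := by fun_prop
    exact h1.eventually_lt h2 h
  let A : ℂ →L[ℝ] ℂ := LinearMap.toContinuousLinearMap
    { toFun := fun c => ⟨ε⁻¹ * c.re, k * (ε⁻¹ * c.re) + c.im⟩
      map_add' := fun a b => by
        apply Complex.ext
        · simp; ring
        · simp; ring
      map_smul' := fun r a => by
        apply Complex.ext
        · simp; ring
        · simp; ring }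
  have hA : ∀ c, A c = ⟨ε⁻¹ * c.re, k * (ε⁻¹ * c.re) + c.im⟩ := fun c => rfl
  refine ⟨1 / 2, by norm_num, by norm_num, A, U ∩ {z | 0 < z.re ∧ |z.im - k * z.re| < z.re / 4},
    inter_mem hU (e1.and e2), ?_⟩
  filter_upwards [hev] with p hp z hz c hc
  rw [hp _ hc.1, hp z hz.1]
  obtain ⟨hz1, hz2⟩ := hz.2
  obtain ⟨hc1, hc2⟩ := hc.2
  have er : (z + A c).re = z.re + ε⁻¹ * c.re := by rw [hA]; rfl
  have ei : (z + A c).im = z.im + (k * (ε⁻¹ * c.re) + c.im) := by rw [hA]; rfl
  have t1 : turn z = z.im - k * z.re := turn_pos (c := z.re) (s := z.im) hz1 hz2.le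
  have t2 : turn (z + A c) = (z + A c).im - k * (z + A c).re :=
    turn_pos (c := (z + A c).re) (s := (z + A c).im) hc1 hc2.le
  have r1 : ray ε k z = ε * z.re - |z.im - k * z.re| / 2 := ray_pos (s := z.im) hz1 k
  have r2 : ray ε k (z + A c) = ε * (z + A c).re - |(z + A c).im - k * (z + A c).re| / 2 :=
    ray_pos (s := (z + A c).im) hc1 k
  have hoff : (z + A c).im - k * (z + A c).re = z.im - k * z.re + c.im := by
    rw [er, ei]; ring
  have hεε : ε * (ε⁻¹ * c.re) = c.re := by rw [← mul_assoc, mul_inv_cancel₀ hε.ne', one_mul]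
  have key : (⟨ray ε k (z + A c) + g p, turn (z + A c)⟩ : ℂ) - ⟨ray ε k z + g p, turn z⟩ - c =
      ((-(|z.im - k * z.re + c.im| - |z.im - k * z.re|) / 2 : ℝ) : ℂ) := by
    apply Complex.ext
    · show ray ε k (z + A c) + g p - (ray ε k z + g p) - c.re = _
      rw [r1, r2, hoff, er, Complex.ofReal_re]
      linear_combination hεε
    · show turn (z + A c) - turn z - c.im = _
      rw [t1, t2, hoff, Complex.ofReal_im]
      ring
  rw [key, Complex.norm_real, Real.norm_eq_abs, abs_div, abs_neg, abs_of_pos (by norm_num : (0:ℝ) < 2)]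
  have h3 : |(|z.im - k * z.re + c.im| - |z.im - k * z.re|)| ≤ |c.im| := by
    have := abs_abs_sub_abs_le_abs_sub (z.im - k * z.re + c.im) (z.im - k * z.re)
    rwa [add_sub_cancel_left] at this
  have h4 := Complex.abs_im_le_norm c
  linarith

/-- A family which near `z₀` is the left ray plus a function of the parameters. -/
theorem regAt_ray_neg {P : Type*} [TopologicalSpace P] {S : Set P} {f : P → ℂ → ℂ} {p₀ : P}
    {z₀ : ℂ} {ε : ℝ} (hε : 0 < ε) {k : ℕ} (h0 : z₀.re < 0) (h : |z₀.im| < -z₀.re / 4) (g : P → ℝ)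
    (hf : ∃ U ∈ 𝓝 z₀, ∀ᶠ p in 𝓝[S] p₀, ∀ z ∈ U, f p z = ⟨ray ε k z + g p, turn z⟩) :
    RegAt S f p₀ z₀ := by
  obtain ⟨U, hU, hev⟩ := hf
  have e1 : ∀ᶠ z : ℂ in 𝓝 z₀, z.re < 0 := Complex.continuous_re.continuousAt.eventually
    (gt_mem_nhds h0)
  have e2 : ∀ᶠ z : ℂ in 𝓝 z₀, |z.im| < -z.re / 4 := by
    have h1 : ContinuousAt (fun z : ℂ => |z.im|) z₀ := by fun_prop
    have h2 : ContinuousAt (fun z : ℂ => -z.re / 4) z₀ := by fun_prop
    exact h1.eventually_lt h2 h
  let A : ℂ →L[ℝ] ℂ := LinearMap.toContinuousLinearMap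
    { toFun := fun c => ⟨-(ε⁻¹ * c.re), -c.im⟩
      map_add' := fun a b => by
        apply Complex.ext
        · simp; ring
        · simp; ring
      map_smul' := fun r a => by
        apply Complex.ext
        · simp; ring
        · simp }
  have hA : ∀ c, A c = ⟨-(ε⁻¹ * c.re), -c.im⟩ := fun c => rfl
  refine ⟨1 / 2, by norm_num, by norm_num, A, U ∩ {z | z.re < 0 ∧ |z.im| < -z.re / 4},
    inter_mem hU (e1.and e2), ?_⟩
  filter_upwards [hev] with p hp z hz c hc
  rw [hp _ hc.1, hp z hz.1]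
  obtain ⟨hz1, hz2⟩ := hz.2
  obtain ⟨hc1, hc2⟩ := hc.2
  have er : (z + A c).re = z.re - ε⁻¹ * c.re := by rw [hA, sub_eq_add_neg]; rfl
  have ei : (z + A c).im = z.im - c.im := by rw [hA, sub_eq_add_neg]; rfl
  have t1 : turn z = -z.im := turn_neg (c := z.re) (s := z.im) hz1 hz2.le
  have t2 : turn (z + A c) = -(z + A c).im :=
    turn_neg (c := (z + A c).re) (s := (z + A c).im) hc1 hc2.le
  have r1 : ray ε k z = ε * -z.re - |z.im| / 2 := ray_neg (s := z.im) hz1.le k
  have r2 : ray ε k (z + A c) = ε * -(z + A c).re - |(z + A c).im| / 2 :=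
    ray_neg (s := (z + A c).im) hc1.le k
  have hεε : ε * (ε⁻¹ * c.re) = c.re := by rw [← mul_assoc, mul_inv_cancel₀ hε.ne', one_mul]
  have key : (⟨ray ε k (z + A c) + g p, turn (z + A c)⟩ : ℂ) - ⟨ray ε k z + g p, turn z⟩ - c =
      ((-(|z.im - c.im| - |z.im|) / 2 : ℝ) : ℂ) := by
    apply Complex.ext
    · show ray ε k (z + A c) + g p - (ray ε k z + g p) - c.re = _
      rw [r1, r2, er, ei, Complex.ofReal_re]
      linear_combination hεε
    · show turn (z + A c) - turn z - c.im = _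
      rw [t1, t2, ei, Complex.ofReal_im]
      ring
  rw [key, Complex.norm_real, Real.norm_eq_abs, abs_div, abs_neg, abs_of_pos (by norm_num : (0:ℝ) < 2)]
  have h3 : |(|z.im - c.im| - |z.im|)| ≤ |c.im| := by
    have := abs_abs_sub_abs_le_abs_sub (z.im - c.im) z.im
    have e : z.im - c.im - z.im = -c.im := by ring
    rwa [e, abs_neg] at this
  have h4 := Complex.abs_im_le_norm c
  linarith

/-! ### The maximum of the rays -/

/-- The maximum of the rays `0, …, n`. -/
noncomputable def rm (ε : ℝ) : ℕ → ℂ → ℝ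
  | 0, z => ray ε 0 z
  | n + 1, z => max (rm ε n z) (ray ε (n + 1) z)

theorem rm_eq_sup' (ε : ℝ) (n : ℕ) (z : ℂ) :
    rm ε n z = (Finset.range (n + 1)).sup' Finset.nonempty_range_add_one fun k => ray ε k z := by
  induction n with
  | zero => simp [rm]
  | succ n ih =>
    rw [rm, ih]
    apply le_antisymm
    · refine max_le (Finset.sup'_le _ _ fun k hk => ?_) ?_
      · exact Finset.le_sup' (fun k => ray ε k z)
          (Finset.mem_range.mpr (by have := Finset.mem_range.mp hk; omega))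
      · exact Finset.le_sup' (fun k => ray ε k z) (Finset.mem_range.mpr (by omega))
    · refine Finset.sup'_le _ _ fun k hk => ?_
      have h1 := Finset.mem_range.mp hk
      rcases Nat.lt_or_ge k (n + 1) with h | h
      · exact le_max_of_le_left (Finset.le_sup' (fun k => ray ε k z) (Finset.mem_range.mpr h))
      · have : k = n + 1 := by omega
        subst this
        exact le_max_right _ _

theorem ray_le_rm (ε : ℝ) {k n : ℕ} (h : k ≤ n) (z : ℂ) : ray ε k z ≤ rm ε n z := by
  rw [rm_eq_sup']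
  exact Finset.le_sup' (fun k => ray ε k z) (Finset.mem_range.mpr (by omega))

theorem rm_le {ε : ℝ} {n : ℕ} {z : ℂ} {x : ℝ} (h : ∀ k ≤ n, ray ε k z ≤ x) : rm ε n z ≤ x := by
  rw [rm_eq_sup']
  exact Finset.sup'_le _ _ fun k hk => h k (by have := Finset.mem_range.mp hk; omega)

theorem exists_rm (ε : ℝ) (n : ℕ) (z : ℂ) : ∃ k ≤ n, rm ε n z = ray ε k z := by
  rw [rm_eq_sup']
  obtain ⟨k, hk, h⟩ := Finset.exists_mem_eq_sup' (s := Finset.range (n + 1))
    Finset.nonempty_range_add_one fun k => ray ε k z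
  exact ⟨k, by have := Finset.mem_range.mp hk; omega, h⟩

theorem continuous_rm (ε : ℝ) (n : ℕ) : Continuous (rm ε n) := by
  induction n with
  | zero => exact continuous_ray' ε 0
  | succ n ih => exact ih.max (continuous_ray' ε (n + 1))

theorem rm_smul (ε : ℝ) (n : ℕ) {r : ℝ} (hr : 0 ≤ r) (z : ℂ) : rm ε n (r • z) = r * rm ε n z := by
  induction n with
  | zero => exact ray_smul' hr 0 z
  | succ n ih => rw [rm, rm, ih, ray_smul' hr, mul_max_of_nonneg _ _ hr]

theorem ray_zero' (ε : ℝ) (k : ℕ) : ray ε k 0 = 0 := by simp [ray]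

theorem rm_zero (ε : ℝ) (n : ℕ) : rm ε n 0 = 0 := by
  obtain ⟨k, _, h⟩ := exists_rm ε n 0
  rw [h, ray_zero']

theorem rm_of_neg {ε : ℝ} {n : ℕ} {z : ℂ} (h : z.re ≤ 0) (k : ℕ) : rm ε n z = ray ε k z := by
  obtain ⟨l, _, hl⟩ := exists_rm ε n z
  rw [hl, ray_neg (s := z.im) h l, ray_neg (s := z.im) h k]

/-- The last ray cannot be much higher than the other rays. -/
theorem ray_sub_le (ε : ℝ) (n : ℕ) (z : ℂ) : ray ε (n + 1) z - rm ε n z ≤ ‖z‖ := by
  have h1 := ray_le_rm ε (le_refl n) z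
  have h2 : ray ε (n + 1) z - ray ε n z ≤ max z.re 0 / 2 := by
    unfold ray
    have h3 := abs_sub_abs_le_abs_sub (z.im - n * max z.re 0)
      (z.im - ((n + 1 : ℕ) : ℝ) * max z.re 0)
    have h4 : z.im - n * max z.re 0 - (z.im - ((n + 1 : ℕ) : ℝ) * max z.re 0) = max z.re 0 := by
      push_cast; ring
    have h4' : |max z.re 0| = max z.re 0 := abs_of_nonneg (le_max_right _ _)
    rw [h4, h4'] at h3
    linarith
  have h5 : max z.re 0 ≤ ‖z‖ := max_le (Complex.re_le_norm z) (norm_nonneg _)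
  have h6 := norm_nonneg z
  linarith

/-- Points where the maximum is nonnegative are near a ray. -/
theorem near_ray {ε : ℝ} {n : ℕ} {z : ℂ} (hz : z ≠ 0) (h : 0 ≤ rm ε n z) :
    (z.re < 0 ∧ |z.im| ≤ 2 * ε * -z.re) ∨
      (0 < z.re ∧ ∃ k ≤ n, |z.im - k * z.re| ≤ 2 * ε * z.re) := by
  obtain ⟨k, hk, he⟩ := exists_rm ε n z
  rw [he] at h
  rcases lt_trichotomy z.re 0 with h0 | h0 | h0
  · left
    rw [ray_neg (s := z.im) h0.le k] at h
    exact ⟨h0, by linarith⟩
  · exfalso
    rw [ray_neg (s := z.im) h0.le k, h0] at h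
    have h1 : |z.im| ≤ 0 := by linarith
    have h2 : z.im = 0 := abs_eq_zero.mp (le_antisymm h1 (abs_nonneg _))
    exact hz (Complex.ext h0 h2)
  · right
    rw [ray_pos (s := z.im) h0 k] at h
    exact ⟨h0, k, hk, by linarith⟩

/-- Near the ray `k` the other rays are much lower. -/
theorem ray_lt_of_near {ε : ℝ} {k l : ℕ} (hkl : l ≠ k) {z : ℂ} (h0 : 0 < z.re)
    (h : |z.im - k * z.re| < z.re / 4) : ray ε l z < ray ε k z - z.re / 4 := by
  rw [ray_pos (s := z.im) h0 k, ray_pos (s := z.im) h0 l]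
  have h1 : z.re ≤ |(k : ℝ) - l| * z.re := by
    have h2 : (1 : ℝ) ≤ |(k : ℝ) - l| := by
      have : (k : ℤ) - l ≠ 0 := by omega
      have h3 : (1 : ℤ) ≤ |(k : ℤ) - l| := Int.one_le_abs this
      exact_mod_cast h3
    nlinarith
  have h3 : |(k : ℝ) - l| * z.re = |(z.im - l * z.re) - (z.im - k * z.re)| := by
    rw [← abs_of_pos h0, ← abs_mul, abs_of_pos h0]
    congr 1
    ring
  have h4 := abs_sub (z.im - l * z.re) (z.im - k * z.re)
  rw [h3] at h1
  linarith

theorem rm_of_near {ε : ℝ} {k n : ℕ} (hk : k ≤ n) {z : ℂ} (h0 : 0 < z.re)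
    (h : |z.im - k * z.re| < z.re / 4) : rm ε n z = ray ε k z := by
  apply le_antisymm
  · refine rm_le fun l hl => ?_
    rcases eq_or_ne l k with rfl | hlk
    · exact le_rfl
    · have := ray_lt_of_near (ε := ε) hlk h0 h
      linarith
  · exact ray_le_rm ε hk z

theorem rm_lt_of_near {ε : ℝ} {k n : ℕ} (hk : n < k) {z : ℂ} (h0 : 0 < z.re)
    (h : |z.im - k * z.re| < z.re / 4) : rm ε n z < ray ε k z - z.re / 4 := by
  obtain ⟨l, hl, he⟩ := exists_rm ε n z
  rw [he]
  exact ray_lt_of_near (by omega) h0 h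

theorem ray_le_mul {ε : ℝ} {k : ℕ} {z : ℂ} (h0 : 0 < z.re) : ray ε k z ≤ ε * z.re := by
  rw [ray_pos (s := z.im) h0 k]
  have := abs_nonneg (z.im - k * z.re)
  linarith

/-! ### The family -/

/-- Cut-off functions for the last ray `n + 1`. -/
structure CutOff (δ : ℝ) (n : ℕ) (η : ℂ → ℝ) : Prop where
  cont : ∀ z, z ≠ 0 → ContinuousAt η z
  hom : ∀ r : ℝ, 0 < r → ∀ z, η (r • z) = η z
  nonneg : ∀ z, 0 ≤ η z
  le_one : ∀ z, η z ≤ 1
  left : ∀ z : ℂ, z.re < 0 → |z.im| ≤ δ * -z.re → η z = 0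
  zero : ∀ (k : ℕ) (z : ℂ), k ≤ n → 0 < z.re → |z.im - k * z.re| ≤ δ * z.re → η z = 0
  one : ∀ z : ℂ, 0 < z.re → |z.im - (n + 1 : ℕ) * z.re| ≤ δ * z.re → η z = 1

/-- The planar family from the real gate to the maximum. -/
noncomputable def stepD (ε : ℝ) (n : ℕ) (C : ℝ) (η : ℂ → ℝ) (t q : ℝ) (z : ℂ) : ℂ :=
  ⟨(1 - t) * (rm ε (n + 1) z - C * η z * min q ‖z‖) +
    t * max (rm ε n z) (ray ε (n + 1) z - q), turn z⟩

theorem stepD_re_le {ε : ℝ} {n : ℕ} {C : ℝ} (hC : 0 ≤ C) {η : ℂ → ℝ} (hη : ∀ z, 0 ≤ η z) {t q : ℝ}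
    (ht : t ∈ Icc (0 : ℝ) 1) (hq : 0 ≤ q) (z : ℂ) : (stepD ε n C η t q z).re ≤ rm ε (n + 1) z := by
  show (1 - t) * (rm ε (n + 1) z - C * η z * min q ‖z‖) +
    t * max (rm ε n z) (ray ε (n + 1) z - q) ≤ _
  have h1 : 0 ≤ C * η z * min q ‖z‖ := mul_nonneg (mul_nonneg hC (hη z)) (le_min hq (norm_nonneg z))
  have h2 : max (rm ε n z) (ray ε (n + 1) z - q) ≤ rm ε (n + 1) z := by
    refine max_le ?_ ?_
    · exact rm_le fun k hk => ray_le_rm ε (by omega) z
    · have := ray_le_rm ε (le_refl (n + 1)) z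
      linarith
  nlinarith [ht.1, ht.2, mul_nonneg (sub_nonneg.mpr ht.2) h1,
    mul_le_mul_of_nonneg_left h2 ht.1]

theorem CutOff.continuous_mul {δ : ℝ} {n : ℕ} {η : ℂ → ℝ} (h : CutOff δ n η) :
    Continuous fun p : ℝ × ℂ => η p.2 * min |p.1| ‖p.2‖ := by
  rw [continuous_iff_continuousAt]
  rintro ⟨q, z⟩
  by_cases hz : z = 0
  · subst hz
    have h0 : η (0 : ℂ) * min |q| ‖(0 : ℂ)‖ = 0 := by
      rw [norm_zero, min_eq_right (abs_nonneg q), mul_zero]
    rw [ContinuousAt]
    show Tendsto _ _ (𝓝 (η (0 : ℂ) * min |q| ‖(0 : ℂ)‖))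
    rw [h0]
    refine squeeze_zero_norm' (a := fun p : ℝ × ℂ => ‖p.2‖) (Eventually.of_forall fun p => ?_) ?_
    · rw [Real.norm_eq_abs, abs_mul, abs_of_nonneg (h.nonneg _),
        abs_of_nonneg (le_min (abs_nonneg _) (norm_nonneg _))]
      calc η p.2 * min |p.1| ‖p.2‖ ≤ 1 * ‖p.2‖ :=
            mul_le_mul (h.le_one _) (min_le_right _ _) (le_min (abs_nonneg _) (norm_nonneg _))
              zero_le_one
        _ = ‖p.2‖ := one_mul _
    · have : Tendsto (fun p : ℝ × ℂ => ‖p.2‖) (𝓝 (q, 0)) (𝓝 ‖(0 : ℂ)‖) :=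
        (continuous_norm.comp continuous_snd).tendsto _
      rwa [norm_zero] at this
  · exact ((h.cont z hz).comp (x := (q, z)) continuous_snd.continuousAt).mul
      (by fun_prop : Continuous fun p : ℝ × ℂ => min |p.1| ‖p.2‖).continuousAt

/-- **Step (D)**: the path from the real gate to the maximum is planar. -/
theorem xplanar_stepD {ε δ C : ℝ} {n : ℕ} {η : ℂ → ℝ} (hε : 0 < ε) (hε' : ε < 1 / 8)
    (hδ : 2 * ε < δ) (hC : 1 ≤ C) (hη : CutOff δ n η) :
    XPlanar (Icc (0 : ℝ) 1) 1 (stepD ε n C η) where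
  cpos := one_pos
  cont := by
    have h1 : Continuous fun p : ℝ × (ℝ × ℂ) =>
        (⟨(1 - p.1) * (rm ε (n + 1) p.2.2 - C * (η p.2.2 * min |p.2.1| ‖p.2.2‖)) +
          p.1 * max (rm ε n p.2.2) (ray ε (n + 1) p.2.2 - p.2.1), turn p.2.2⟩ : ℂ) := by
      have h2 : Continuous fun p : ℝ × (ℝ × ℂ) => η p.2.2 * min |p.2.1| ‖p.2.2‖ :=
        hη.continuous_mul.comp continuous_snd
      have h3 := continuous_rm ε (n + 1)
      have h4 := continuous_rm ε n
      have h5 := continuous_ray' ε (n + 1)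
      have h6 := continuous_turn'
      have h7 : Continuous fun p : ℝ × (ℝ × ℂ) =>
          (1 - p.1) * (rm ε (n + 1) p.2.2 - C * (η p.2.2 * min |p.2.1| ‖p.2.2‖)) +
          p.1 * max (rm ε n p.2.2) (ray ε (n + 1) p.2.2 - p.2.1) := by
        have h8 : Continuous fun p : ℝ × (ℝ × ℂ) => rm ε (n + 1) p.2.2 :=
          h3.comp (by fun_prop)
        have h9 : Continuous fun p : ℝ × (ℝ × ℂ) => rm ε n p.2.2 := h4.comp (by fun_prop)
        have h10 : Continuous fun p : ℝ × (ℝ × ℂ) => ray ε (n + 1) p.2.2 :=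
          h5.comp (by fun_prop)
        exact ((continuous_const.sub continuous_fst).mul (h8.sub (continuous_const.mul h2))).add
          (continuous_fst.mul (h9.max (h10.sub (by fun_prop))))
      have h11 : Continuous fun p : ℝ × (ℝ × ℂ) => turn p.2.2 := h6.comp (by fun_prop)
      exact Complex.equivRealProdCLM.symm.continuous.comp (h7.prodMk h11)
    refine h1.continuousOn.congr fun p hp => ?_
    have h2 : |p.2.1| = p.2.1 := abs_of_nonneg hp.2.1
    simp only [stepD, h2, mul_assoc]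
  hom := fun t _ r hr d hd z => by
    rcases hr.eq_or_lt with rfl | hr'
    · have h1 : stepD ε n C η t (0 * d) ((0 : ℝ) • z) = ⟨0, 0⟩ := by
        rw [zero_mul, zero_smul, stepD, rm_zero, rm_zero, ray_zero']
        simp [turn]
      rw [h1, zero_smul]; rfl
    · apply Complex.ext
      · show (1 - t) * (rm ε (n + 1) (r • z) - C * η (r • z) * min (r * d) ‖r • z‖) +
          t * max (rm ε n (r • z)) (ray ε (n + 1) (r • z) - r * d) = (r • stepD ε n C η t d z).re
        rw [rm_smul ε _ hr, rm_smul ε _ hr, ray_smul' hr, hη.hom r hr', norm_smul,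
          Real.norm_of_nonneg hr, ← mul_min_of_nonneg _ _ hr, ← mul_sub, ← mul_max_of_nonneg _ _ hr,
          Complex.smul_re, smul_eq_mul, stepD]
        ring
      · show turn (r • z) = (r • stepD ε n C η t d z).im
        rw [turn_smul' hr, Complex.smul_im, smul_eq_mul, stepD]
  zero := fun t _ d hd => by
    have h1 : max (0 : ℝ) (0 - d) = 0 := max_eq_left (by linarith)
    rw [stepD, rm_zero, rm_zero, ray_zero', norm_zero, min_eq_right hd, h1]
    apply Complex.ext <;> simp [turn]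
  sat := fun t _ d z hd => by
    rw [one_mul] at hd ⊢
    have h1 := ray_sub_le ε n z
    rw [stepD, stepD, min_eq_right hd, min_self, max_eq_left (by linarith),
      max_eq_left (by linarith)]
  reg := fun t ht q hq z hz h0 => by
    have hR : 0 ≤ rm ε (n + 1) z :=
      h0.trans (stepD_re_le (by linarith) hη.nonneg ht hq z)
    -- the parameters are in the right region
    have hmem : ∀ᶠ p : ℝ × ℝ in 𝓝[Icc (0 : ℝ) 1 ×ˢ Ici (0 : ℝ)] (t, q), 0 ≤ p.2 := by
      filter_upwards [self_mem_nhdsWithin] with p hp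
      exact hp.2
    rcases near_ray hz hR with ⟨h1, h2⟩ | ⟨h1, k, hk, h2⟩
    · -- the left ray
      have h3 : |z.im| < -z.re / 4 := lt_of_le_of_lt h2 (by nlinarith)
      have h4 : |z.im| < δ * -z.re := lt_of_le_of_lt h2 (by nlinarith)
      refine regAt_ray_neg (k := 0) hε h1 h3 (fun _ => 0) ⟨{w | w.re < 0 ∧ |w.im| < δ * -w.re},
        ?_, ?_⟩
      · have e1 : ∀ᶠ w : ℂ in 𝓝 z, w.re < 0 := Complex.continuous_re.continuousAt.eventually
          (gt_mem_nhds h1)
        have e2 : ∀ᶠ w : ℂ in 𝓝 z, |w.im| < δ * -w.re := by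
          have h5 : ContinuousAt (fun w : ℂ => |w.im|) z := by fun_prop
          have h6 : ContinuousAt (fun w : ℂ => δ * -w.re) z := by fun_prop
          exact h5.eventually_lt h6 h4
        exact e1.and e2
      · filter_upwards [hmem] with p hp w hw
        have h5 : rm ε (n + 1) w = ray ε 0 w := rm_of_neg hw.1.le 0
        have h6 : rm ε n w = ray ε 0 w := rm_of_neg hw.1.le 0
        have h7 : ray ε (n + 1) w = ray ε 0 w := by
          rw [ray_neg (s := w.im) hw.1.le (n + 1), ray_neg (s := w.im) hw.1.le 0]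
        rw [stepD, h5, h6, h7, hη.left w hw.1 hw.2.le, max_eq_left (by linarith)]
        apply Complex.ext
        · show _ = ray ε 0 w + 0
          ring
        · rfl
    · have h3 : |z.im - k * z.re| < z.re / 4 := lt_of_le_of_lt h2 (by nlinarith)
      have h4 : |z.im - k * z.re| < δ * z.re := lt_of_le_of_lt h2 (by nlinarith)
      have e1 : ∀ᶠ w : ℂ in 𝓝 z, 0 < w.re := Complex.continuous_re.continuousAt.eventually
        (lt_mem_nhds h1)
      have e2 : ∀ᶠ w : ℂ in 𝓝 z, |w.im - k * w.re| < w.re / 4 := by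
        have h5 : ContinuousAt (fun w : ℂ => |w.im - k * w.re|) z := by fun_prop
        have h6 : ContinuousAt (fun w : ℂ => w.re / 4) z := by fun_prop
        exact h5.eventually_lt h6 h3
      have e3 : ∀ᶠ w : ℂ in 𝓝 z, |w.im - k * w.re| < δ * w.re := by
        have h5 : ContinuousAt (fun w : ℂ => |w.im - k * w.re|) z := by fun_prop
        have h6 : ContinuousAt (fun w : ℂ => δ * w.re) z := by fun_prop
        exact h5.eventually_lt h6 h4
      rcases Nat.lt_or_ge n k with hnk | hnk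
      · -- the last ray
        have hkn : k = n + 1 := by omega
        subst hkn
        have hq1 : q ≤ ε * z.re := by
          by_contra hcon
          push Not at hcon
          have g1 : rm ε (n + 1) z ≤ ε * z.re := by
            rw [rm_of_near le_rfl h1 h3]
            exact ray_le_mul h1
          have g2 : ε * z.re < min q ‖z‖ := by
            refine lt_min hcon (lt_of_lt_of_le ?_ (Complex.re_le_norm z))
            nlinarith
          have g3 : rm ε (n + 1) z - C * η z * min q ‖z‖ < 0 := by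
            rw [hη.one z h1 h4.le, mul_one]
            nlinarith [mul_pos hε h1]
          have g4 : max (rm ε n z) (ray ε (n + 1) z - q) < 0 := by
            refine max_lt ?_ ?_
            · have g5 := rm_lt_of_near (ε := ε) (Nat.lt_succ_self n) h1 h3
              have g6 : ray ε (n + 1) z ≤ ε * z.re := ray_le_mul h1
              nlinarith
            · have g6 : ray ε (n + 1) z ≤ ε * z.re := ray_le_mul h1
              linarith
          have g5 : (stepD ε n C η t q z).re < 0 := by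
            show (1 - t) * (rm ε (n + 1) z - C * η z * min q ‖z‖) +
              t * max (rm ε n z) (ray ε (n + 1) z - q) < 0
            rcases ht.1.eq_or_lt with h5 | h5
            · rw [← h5]; linarith
            · nlinarith [mul_nonneg (sub_nonneg.mpr ht.2) (neg_nonneg.mpr g3.le),
                mul_pos h5 (neg_pos.mpr g4)]
          exact absurd h0 (not_le.mpr g5)
        have hq2 : q < ‖z‖ := lt_of_le_of_lt hq1 (lt_of_lt_of_le (by nlinarith)
          (Complex.re_le_norm z))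
        have hq3 : rm ε n z < ray ε (n + 1) z - q := by
          have g5 := rm_lt_of_near (ε := ε) (Nat.lt_succ_self n) h1 h3
          nlinarith
        -- choose product neighbourhoods
        obtain ⟨q', hqq', hq'z⟩ : ∃ q', q < q' ∧ q' < ‖z‖ ∧ rm ε n z < ray ε (n + 1) z - q' := by
          obtain ⟨q', h5, h6⟩ := exists_between (lt_min hq2 (by linarith : q <
            ray ε (n + 1) z - rm ε n z))
          exact ⟨q', h5, h6.trans_le (min_le_left _ _), by
            have := h6.trans_le (min_le_right _ _)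
            linarith⟩
        have e4 : ∀ᶠ w : ℂ in 𝓝 z, q' < ‖w‖ :=
          continuous_norm.continuousAt.eventually (lt_mem_nhds hq'z.1)
        have e5 : ∀ᶠ w : ℂ in 𝓝 z, rm ε n w < ray ε (n + 1) w - q' := by
          have h5 : ContinuousAt (fun w : ℂ => rm ε n w) z := (continuous_rm ε n).continuousAt
          have h6 : ContinuousAt (fun w : ℂ => ray ε (n + 1) w - q') z :=
            ((continuous_ray' ε (n + 1)).sub continuous_const).continuousAt
          exact h5.eventually_lt h6 hq'z.2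
        have e6 : ∀ᶠ p : ℝ × ℝ in 𝓝[Icc (0 : ℝ) 1 ×ˢ Ici (0 : ℝ)] (t, q), p.2 < q' :=
          nhdsWithin_le_nhds (continuous_snd.continuousAt.eventually (gt_mem_nhds hqq'))
        refine regAt_ray_pos (k := n + 1) hε h1 h3 (fun p => -(((1 - p.1) * C + p.1) * p.2))
          ⟨{w | (0 < w.re ∧ |w.im - (n + 1 : ℕ) * w.re| < w.re / 4) ∧
            |w.im - (n + 1 : ℕ) * w.re| < δ * w.re ∧ q' < ‖w‖ ∧
            rm ε n w < ray ε (n + 1) w - q'}, (e1.and e2).and (e3.and (e4.and e5)), ?_⟩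
        filter_upwards [e6] with p hp w hw
        obtain ⟨⟨w1, w2⟩, w3, w4, w5⟩ := hw
        rw [stepD, rm_of_near le_rfl w1 w2, hη.one w w1 w3.le, min_eq_left (by linarith),
          max_eq_right (by linarith)]
        apply Complex.ext
        · show _ = ray ε (n + 1) w + -(((1 - p.1) * C + p.1) * p.2)
          ring
        · rfl
      · -- the other rays
        refine regAt_ray_pos (k := k) hε h1 h3 (fun _ => 0)
          ⟨{w | (0 < w.re ∧ |w.im - k * w.re| < w.re / 4) ∧ |w.im - k * w.re| < δ * w.re},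
            (e1.and e2).and e3, ?_⟩
        filter_upwards [hmem] with p hp w hw
        obtain ⟨⟨w1, w2⟩, w3⟩ := hw
        have h5 : ray ε (n + 1) w < ray ε k w - w.re / 4 :=
          ray_lt_of_near (by omega) w1 w2
        rw [stepD, rm_of_near hk w1 w2, rm_of_near hnk w1 w2, hη.zero k w hnk w1 w3.le,
          max_eq_left (by linarith)]
        apply Complex.ext
        · show _ = ray ε k w + 0
          ring
        · rfl

end Vale.Agent.P268.T
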