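import Vale.Agent.P268.T.H69.Idx

/-!
# P268, topological half: the real gate form is planar

Functions `g t (arg z)` with `g t` periodic are continuous off the origin; the real gate form
`realG` of a family of loops with an index function is planar (`TurnData.xplanar`) and negative
over the rests (`TurnData.realG_neg`).
-/

set_option linter.unusedSectionVars false

namespace Vale.Agent.P268.T

open Set Filter Topology

/-! ### Functions of the argument -/

namespace C830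

section

variable {T : Type*} [TopologicalSpace T] {Y : Type*}

/-- Change of the base point of the argument. -/
theorem per_arg_eq {g : ℝ → Y} (hg : Function.Periodic g (2 * Real.pi)) {x₀ x : ℂ} (hx₀ : x₀ ≠ 0)
    (hx : x ≠ 0) : g (Complex.arg x) = g (Complex.arg x₀ + Complex.arg (x / x₀)) := by
  have h1 : ((Complex.arg x : ℝ) : Real.Angle) =
      ((Complex.arg x₀ + Complex.arg (x / x₀) : ℝ) : Real.Angle) := by
    rw [Real.Angle.coe_add, ← Complex.arg_mul_coe_angle hx₀ (div_ne_zero hx hx₀),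
      mul_div_cancel₀ _ hx₀]
  obtain ⟨k, hk⟩ := Real.Angle.angle_eq_iff_two_pi_dvd_sub.mp h1
  have h2 : Complex.arg x = Complex.arg x₀ + Complex.arg (x / x₀) + k * (2 * Real.pi) := by
    linarith
  rw [h2]
  exact hg.int_mul k _

theorem tendsto_arg_div {x₀ : ℂ} (hx₀ : x₀ ≠ 0) :
    Tendsto (fun x : ℂ => Complex.arg x₀ + Complex.arg (x / x₀)) (𝓝 x₀) (𝓝 (Complex.arg x₀)) := by
  have h3 : ContinuousAt Complex.arg (x₀ / x₀) := by
    rw [div_self hx₀]
    exact Complex.continuousAt_arg (by simp [Complex.slitPlane])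
  have h4 : ContinuousAt (fun x : ℂ => Complex.arg x₀ + Complex.arg (x / x₀)) x₀ :=
    continuousAt_const.add
      (ContinuousAt.comp (f := fun x : ℂ => x / x₀) h3 (continuousAt_id.div_const x₀))
  have h5 : Complex.arg x₀ + Complex.arg (x₀ / x₀) = Complex.arg x₀ := by
    rw [div_self hx₀, Complex.arg_one, add_zero]
  have h6 := h4.tendsto
  rwa [h5] at h6

/-- Properties of the argument which hold nearby, for periodic functions. -/
theorem eventually_arg {s : Set T} {g : T → ℝ → Y} {Q : Y → Prop}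
    (per : ∀ t ∈ s, Function.Periodic (g t) (2 * Real.pi)) {t₀ : T} {x₀ : ℂ} (hx₀ : x₀ ≠ 0)
    (h : ∀ᶠ q : T × ℝ in 𝓝[s] t₀ ×ˢ 𝓝 (Complex.arg x₀), Q (g q.1 q.2)) :
    ∀ᶠ p : T × ℂ in 𝓝[s] t₀ ×ˢ 𝓝 x₀, Q (g p.1 (Complex.arg p.2)) := by
  have h1 : Tendsto (fun p : T × ℂ => (p.1, Complex.arg x₀ + Complex.arg (p.2 / x₀)))
      (𝓝[s] t₀ ×ˢ 𝓝 x₀) (𝓝[s] t₀ ×ˢ 𝓝 (Complex.arg x₀)) :=
    tendsto_fst.prodMk ((tendsto_arg_div hx₀).comp tendsto_snd)
  have h2 : ∀ᶠ p : T × ℂ in 𝓝[s] t₀ ×ˢ 𝓝 x₀, p.2 ≠ 0 :=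
    tendsto_snd.eventually (isOpen_ne.mem_nhds hx₀)
  have h3 : ∀ᶠ p : T × ℂ in 𝓝[s] t₀ ×ˢ 𝓝 x₀, p.1 ∈ s :=
    tendsto_fst.eventually self_mem_nhdsWithin
  filter_upwards [h1.eventually h, h2, h3] with p a b c
  rw [per_arg_eq (per p.1 c) hx₀ b]
  exact a

/-- Continuity off the origin. -/
theorem continuousWithinAt_arg [TopologicalSpace Y] {s : Set T} {g : T → ℝ → Y}
    (cont : ContinuousOn (fun p : T × ℝ => g p.1 p.2) (s ×ˢ univ))
    (per : ∀ t ∈ s, Function.Periodic (g t) (2 * Real.pi)) {t₀ : T} (ht₀ : t₀ ∈ s) {x₀ : ℂ}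
    (hx₀ : x₀ ≠ 0) :
    ContinuousWithinAt (fun p : T × ℂ => g p.1 (Complex.arg p.2)) (s ×ˢ univ) (t₀, x₀) := by
  have h0 := cont (t₀, Complex.arg x₀) ⟨ht₀, mem_univ _⟩
  rw [ContinuousWithinAt, nhdsWithin_prod_eq, nhdsWithin_univ] at h0
  rw [ContinuousWithinAt, nhdsWithin_prod_eq, nhdsWithin_univ]
  intro V hV
  exact eventually_arg (Q := fun y => y ∈ V) per hx₀ (h0 hV)

/-- Bounded functions of the argument, times the norm. -/
theorem continuousOn_norm_mul_arg {s : Set T} {g : T → ℝ → ℝ}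
    (cont : ContinuousOn (fun p : T × ℝ => g p.1 p.2) (s ×ˢ univ))
    (per : ∀ t ∈ s, Function.Periodic (g t) (2 * Real.pi)) {M : ℝ} (bd : ∀ t ∈ s, ∀ θ, |g t θ| ≤ M) :
    ContinuousOn (fun p : T × ℂ => ‖p.2‖ * g p.1 (Complex.arg p.2)) (s ×ˢ univ) := by
  rintro ⟨t₀, x₀⟩ ⟨ht₀, -⟩
  rcases eq_or_ne x₀ 0 with rfl | hx₀
  · rw [ContinuousWithinAt]
    show Tendsto (fun p : T × ℂ => ‖p.2‖ * g p.1 (Complex.arg p.2)) (𝓝[s ×ˢ univ] (t₀, 0))
      (𝓝 (‖(0 : ℂ)‖ * g t₀ (Complex.arg 0)))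
    rw [norm_zero, zero_mul]
    refine squeeze_zero_norm' (a := fun p : T × ℂ => ‖p.2‖ * M) ?_ ?_
    · filter_upwards [self_mem_nhdsWithin] with p hp
      rw [Real.norm_eq_abs, abs_mul, abs_norm]
      exact mul_le_mul_of_nonneg_left (bd p.1 hp.1 _) (norm_nonneg _)
    · have h2 : Tendsto (fun p : T × ℂ => ‖p.2‖ * M) (𝓝 (t₀, 0)) (𝓝 (‖(0 : ℂ)‖ * M)) :=
        (continuous_snd.norm.mul continuous_const).tendsto _
      rw [norm_zero, zero_mul] at h2
      exact h2.mono_left nhdsWithin_le_nhds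
  · exact continuous_snd.norm.continuousWithinAt.mul (continuousWithinAt_arg cont per ht₀ hx₀)

end

end C830

/-! ### The real gate form -/

section

variable {A : ℕ} {f : ℝ → ℝ → ℂ} {P : ℝ → ℝ → ℝ}

theorem realG_re (t q : ℝ) (z : ℂ) : (realG A f P t q z).re =
    ‖z‖ * (f t (Complex.arg z)).re - 2 * (eta A (P t (Complex.arg z)) * min q ‖z‖) := by
  rw [realG, Complex.sub_re, pol, Complex.smul_re, Complex.ofReal_re, smul_eq_mul]

theorem realG_re_le (t : ℝ) {q : ℝ} (hq : 0 ≤ q) (z : ℂ) :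
    (realG A f P t q z).re ≤ ‖z‖ * (f t (Complex.arg z)).re := by
  rw [realG_re]
  have h1 : 0 ≤ eta A (P t (Complex.arg z)) * min q ‖z‖ :=
    mul_nonneg (eta_nonneg A _) (le_min hq (norm_nonneg z))
  linarith

/-- The gate form is negative on the rests. -/
theorem TurnData.realG_neg (h : TurnData A f P) {t : ℝ} (ht : t ∈ Icc (0 : ℝ) 1) {z : ℂ}
    (hz : z ≠ 0) (hd : 3 / 10 ≤ dZ (P t (Complex.arg z))) {q : ℝ} (hq : 0 ≤ q) :
    (realG A f P t q z).re < 0 :=
  (realG_re_le t hq z).trans_lt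
    (mul_neg_of_pos_of_neg (norm_pos_iff.mpr hz) (h.neg t ht _ hd))

theorem TurnData.eta_per (hA : 0 < A) (h : TurnData A f P) (t : ℝ) :
    Function.Periodic (fun θ => eta A (P t θ)) (2 * Real.pi) := by
  intro θ
  show eta A (P t (θ + 2 * Real.pi)) = eta A (P t θ)
  rw [h.Pper]
  have := eta_add hA (P t θ) 1
  rwa [Int.cast_one, one_mul] at this

/-- **The real gate form is planar.** -/
theorem TurnData.xplanar (hA : 0 < A) (h : TurnData A f P) :
    XPlanar (Icc (0 : ℝ) 1) 1 (realG A f P) := by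
  have hηc : Continuous fun q : ℝ × ℝ => eta A (P q.1 q.2) := (continuous_eta A).comp h.Pcont
  have hpol := h.fam.hFam
  refine ⟨one_pos, ?_, ?_, ?_, ?_, ?_⟩
  · -- continuity
    have h1 : ContinuousOn (fun p : ℝ × (ℝ × ℂ) => pol (f p.1) p.2.2)
        (Icc (0 : ℝ) 1 ×ˢ (Ici 0 ×ˢ univ)) :=
      hpol.cont.comp (f := fun p : ℝ × (ℝ × ℂ) => (p.1, p.2.2))
        (by fun_prop : Continuous fun p : ℝ × (ℝ × ℂ) => (p.1, p.2.2)).continuousOn
        (fun p hp => ⟨hp.1, mem_univ _⟩)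
    have h2 : ContinuousOn (fun p : ℝ × (ℝ × ℂ) =>
        eta A (P p.1 (Complex.arg p.2.2)) * min p.2.1 ‖p.2.2‖)
        (Icc (0 : ℝ) 1 ×ˢ (Ici 0 ×ˢ univ)) := by
      rintro ⟨t₀, q₀, z₀⟩ ⟨ht₀, hq₀, -⟩
      have hq₀' : (0 : ℝ) ≤ q₀ := hq₀
      rcases eq_or_ne z₀ 0 with rfl | hz₀
      · rw [ContinuousWithinAt]
        show Tendsto (fun p : ℝ × (ℝ × ℂ) =>
          eta A (P p.1 (Complex.arg p.2.2)) * min p.2.1 ‖p.2.2‖)
          (𝓝[Icc (0 : ℝ) 1 ×ˢ (Ici 0 ×ˢ univ)] (t₀, q₀, 0))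
          (𝓝 (eta A (P t₀ (Complex.arg 0)) * min q₀ ‖(0 : ℂ)‖))
        rw [norm_zero, min_eq_right hq₀', mul_zero]
        refine squeeze_zero_norm' (a := fun p : ℝ × (ℝ × ℂ) => ‖p.2.2‖) ?_ ?_
        · filter_upwards [self_mem_nhdsWithin] with p hp
          have hq : 0 ≤ p.2.1 := hp.2.1
          have h3 : 0 ≤ min p.2.1 ‖p.2.2‖ := le_min hq (norm_nonneg _)
          rw [Real.norm_eq_abs, abs_of_nonneg (mul_nonneg (eta_nonneg A _) h3)]
          calc _ ≤ 1 * min p.2.1 ‖p.2.2‖ := mul_le_mul_of_nonneg_right (eta_le_one A _) h3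
            _ ≤ ‖p.2.2‖ := by rw [one_mul]; exact min_le_right _ _
        · have h2 : Tendsto (fun p : ℝ × (ℝ × ℂ) => ‖p.2.2‖) (𝓝 (t₀, q₀, 0)) (𝓝 ‖(0 : ℂ)‖) :=
            (by fun_prop : Continuous fun p : ℝ × (ℝ × ℂ) => ‖p.2.2‖).tendsto _
          rw [norm_zero] at h2
          exact h2.mono_left nhdsWithin_le_nhds
      · refine ContinuousWithinAt.mul ?_ ?_
        · have h3 := C830.continuousWithinAt_arg (g := fun t θ => eta A (P t θ)) (s := Icc (0 : ℝ) 1)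
            hηc.continuousOn (fun t _ => h.eta_per hA t) ht₀ hz₀
          exact ContinuousWithinAt.comp (x := (t₀, q₀, z₀))
            (f := fun p : ℝ × (ℝ × ℂ) => (p.1, p.2.2))
            (g := fun p : ℝ × ℂ => eta A (P p.1 (Complex.arg p.2))) h3
            (by fun_prop : Continuous fun p : ℝ × (ℝ × ℂ) => (p.1, p.2.2)).continuousWithinAt
            (fun p hp => ⟨hp.1, mem_univ _⟩)
        · exact (by fun_prop : Continuous fun p : ℝ × (ℝ × ℂ) =>
            min p.2.1 ‖p.2.2‖).continuousWithinAt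
    have h3 : ContinuousOn (fun p : ℝ × (ℝ × ℂ) =>
        ((2 * (eta A (P p.1 (Complex.arg p.2.2)) * min p.2.1 ‖p.2.2‖) : ℝ) : ℂ))
        (Icc (0 : ℝ) 1 ×ˢ (Ici 0 ×ˢ univ)) :=
      Complex.continuous_ofReal.comp_continuousOn (h2.const_smul (2 : ℝ))
    exact h1.sub h3
  · -- homogeneity
    intro t _ r hr d _ z
    rcases hr.eq_or_lt with rfl | hr'
    · simp [realG, pol]
    · have h1 : Complex.arg (r • z) = Complex.arg z := by
        rw [Complex.real_smul, Complex.arg_real_mul z hr']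
      have h2 : min (r * d) ‖r • z‖ = r * min d ‖z‖ := by
        rw [norm_smul, Real.norm_eq_abs, abs_of_pos hr', mul_min_of_nonneg _ _ hr]
      rw [realG, realG, h1, h2, pol_hom (f t) r hr z, smul_sub]
      congr 1
      rw [Complex.real_smul]
      push_cast
      ring
  · intro t _ d hd
    rw [realG, norm_zero, min_eq_right hd]
    simp [pol]
  · intro t _ d z hd
    rw [one_mul] at hd
    rw [realG, realG, min_eq_right hd, one_mul, min_self]
  · -- regularity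
    intro t ht d hd z hz h0
    have hn : 0 < ‖z‖ := norm_pos_iff.mpr hz
    have hre0 : 0 ≤ (f t (Complex.arg z)).re :=
      nonneg_of_mul_nonneg_right (h0.trans (realG_re_le t hd z)) hn
    have hdz : ¬ 3 / 10 ≤ dZ (P t (Complex.arg z)) := fun hc =>
      absurd (h.neg t ht _ hc) (not_lt.mpr hre0)
    have hpre : 0 ≤ (pol (f t) z).re := by
      rw [pol, Complex.smul_re, smul_eq_mul]
      exact mul_nonneg hn.le hre0
    have hreg : RegAt (Icc (0 : ℝ) 1) (fun t => pol (f t)) t z := hpol.reg t ht z hz hpre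
    have hreg' : RegAt (Icc (0 : ℝ) 1 ×ˢ Ici (0 : ℝ)) (fun p : ℝ × ℝ => pol (f p.1)) (t, d) z :=
      RegAt.param (φ := Prod.fst) (F := fun t => pol (f t)) (t := (t, d)) continuousWithinAt_fst
        (fun p hp => hp.1) hreg
    -- local constancy of `eta`
    have hloc : ∀ c : ℝ, (∀ᶠ p' in 𝓝 (P t (Complex.arg z)), eta A p' = c) →
        ∃ U ∈ 𝓝 z, ∀ᶠ t' in 𝓝[Icc (0 : ℝ) 1] t, ∀ y ∈ U, eta A (P t' (Complex.arg y)) = c := by
      intro c hc
      have h1 : ∀ᶠ q : ℝ × ℝ in 𝓝 (t, Complex.arg z), eta A (P q.1 q.2) = c :=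
        (h.Pcont.tendsto (t, Complex.arg z)).eventually hc
      rw [nhds_prod_eq] at h1
      have h2 : ∀ᶠ q : ℝ × ℝ in 𝓝[Icc (0 : ℝ) 1] t ×ˢ 𝓝 (Complex.arg z), eta A (P q.1 q.2) = c :=
        h1.filter_mono (prod_mono_left _ nhdsWithin_le_nhds)
      have h3 := C830.eventually_arg (g := fun t θ => eta A (P t θ)) (Q := fun y => y = c)
        (s := Icc (0 : ℝ) 1) (fun t _ => h.eta_per hA t) hz h2
      obtain ⟨pa, ha, pb, hb, hab⟩ := eventually_prod_iff.mp h3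
      exact ⟨{y | pb y}, hb, ha.mono fun t' ht' y hy => hab ht' hy⟩
    rcases eta_cases hA (P t (Complex.arg z)) with he | he | he
    · obtain ⟨U, hU, hev⟩ := hloc 0 he
      refine hreg'.congr ⟨U, hU, ?_⟩
      have h4 : Tendsto (Prod.fst : ℝ × ℝ → ℝ) (𝓝[Icc (0 : ℝ) 1 ×ˢ Ici 0] (t, d))
          (𝓝[Icc (0 : ℝ) 1] t) :=
        continuousWithinAt_fst.tendsto_nhdsWithin (fun p hp => hp.1)
      filter_upwards [h4.eventually hev] with p hp y hy
      rw [realG, hp y hy, zero_mul, mul_zero, Complex.ofReal_zero, sub_zero]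
    · exact absurd he hdz
    · obtain ⟨U, hU, hev⟩ := hloc 1 he
      have hval : eta A (P t (Complex.arg z)) = 1 := he.self_of_nhds
      have hdz' : d < ‖z‖ := by
        rw [realG_re, hval, one_mul] at h0
        have h5 : (f t (Complex.arg z)).re ≤ 1 := h.re_le t ht _
        have h6 : ‖z‖ * (f t (Complex.arg z)).re ≤ ‖z‖ * 1 :=
          mul_le_mul_of_nonneg_left h5 hn.le
        by_contra hcon
        rw [min_eq_right (not_lt.mp hcon)] at h0
        linarith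
      set m : ℝ := (d + ‖z‖) / 2 with hm
      have hU' : U ∩ {y : ℂ | m < ‖y‖} ∈ 𝓝 z := by
        refine inter_mem hU ?_
        exact (isOpen_lt continuous_const continuous_norm).mem_nhds
          (show m < ‖z‖ by rw [hm]; linarith)
      have hreg2 : RegAt (Icc (0 : ℝ) 1 ×ˢ Ici (0 : ℝ))
          (fun (p : ℝ × ℝ) y => -((2 * p.2 : ℝ) : ℂ) + pol (f p.1) y) (t, d) z :=
        hreg'.add_const (fun p : ℝ × ℝ => -((2 * p.2 : ℝ) : ℂ))
      refine hreg2.congr ⟨U ∩ {y : ℂ | m < ‖y‖}, hU', ?_⟩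
      have h4 : Tendsto (Prod.fst : ℝ × ℝ → ℝ) (𝓝[Icc (0 : ℝ) 1 ×ˢ Ici 0] (t, d))
          (𝓝[Icc (0 : ℝ) 1] t) :=
        continuousWithinAt_fst.tendsto_nhdsWithin (fun p hp => hp.1)
      have h7 : ∀ᶠ p : ℝ × ℝ in 𝓝[Icc (0 : ℝ) 1 ×ˢ Ici 0] (t, d), p.2 < m :=
        nhdsWithin_le_nhds ((isOpen_lt continuous_snd continuous_const).mem_nhds
          (show d < m by rw [hm]; linarith))
      filter_upwards [h4.eventually hev, h7] with p hp hp2 y hy
      have hy2 : m < ‖y‖ := hy.2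
      have e1 : eta A (P p.1 (Complex.arg y)) = 1 := hp y hy.1
      have e2 : min p.2 ‖y‖ = p.2 := min_eq_left (hp2.trans hy2).le
      rw [realG, e1, e2, one_mul, neg_add_eq_sub]

end

end Vale.Agent.P268.T
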