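import Vale.Agent.P268.T.H548.Defs
import Vale.Agent.P268.T.H830.Level

/-!
# P268, topological half: chains of gates

`gch G₁ G χ κ c`: the function of the chain `c` built from the one-variable functions `G₁ a`, the
gates `G a`, the gate functions `χ a c` and the strengths `κ`.  `gch_tame`: it is tame, if every
strength is large compared with the previous ones (nested `∀ᶠ`).
-/

set_option linter.unusedSectionVars false

namespace Vale.Agent.P268.T

open Set Filter Topology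

/-! ### Nested `eventually` -/

/-- Nested `eventually` for lists of `n` real numbers; the head is chosen last. -/
def Nest : ℕ → (List ℝ → Prop) → Prop
  | 0, P => P []
  | n + 1, P => Nest n fun l => ∀ᶠ k : ℝ in atTop, P (k :: l)

theorem Nest.mono {n : ℕ} {P Q : List ℝ → Prop} (h : Nest n P)
    (hPQ : ∀ l, l.length = n → P l → Q l) : Nest n Q := by
  induction n generalizing P Q with
  | zero => exact hPQ [] rfl h
  | succ n ih =>
    refine ih (P := fun l => ∀ᶠ k : ℝ in atTop, P (k :: l)) h fun l hl hP => ?_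
    filter_upwards [hP] with k hk
    exact hPQ (k :: l) (by simp [hl]) hk

theorem Nest.and {n : ℕ} {P Q : List ℝ → Prop} (h : Nest n P) (h' : Nest n Q) :
    Nest n fun l => P l ∧ Q l := by
  induction n generalizing P Q with
  | zero => exact ⟨h, h'⟩
  | succ n ih =>
    refine (ih (P := fun l => ∀ᶠ k : ℝ in atTop, P (k :: l))
      (Q := fun l => ∀ᶠ k : ℝ in atTop, Q (k :: l)) h h').mono fun l _ hl => ?_
    exact hl.1.and hl.2

theorem Nest.exists {n : ℕ} {P : List ℝ → Prop} (h : Nest n P) : ∃ l, l.length = n ∧ P l := by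
  induction n generalizing P with
  | zero => exact ⟨[], rfl, h⟩
  | succ n ih =>
    obtain ⟨l, hl, h1⟩ := ih (P := fun l => ∀ᶠ k : ℝ in atTop, P (k :: l)) h
    obtain ⟨k, hk⟩ := h1.exists
    exact ⟨k :: l, by simp [hl], hk⟩

theorem Nest.of_forall {n : ℕ} {P : List ℝ → Prop} (h : ∀ l, l.length = n → P l) : Nest n P := by
  induction n generalizing P with
  | zero => exact h [] rfl
  | succ n ih =>
    exact ih (P := fun l => ∀ᶠ k : ℝ in atTop, P (k :: l)) fun l hl =>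
      Eventually.of_forall fun k => h (k :: l) (by simp [hl])

/-! ### Collars and parameters -/

theorem CollarAt.param {E : Type*} [NormedAddCommGroup E] [NormedSpace ℝ E]
    {Θ Θ' : Type*} [TopologicalSpace Θ] [TopologicalSpace Θ'] {s : Set Θ} {s' : Set Θ'}
    {B : Θ → E × ℂ → ℂ} {φ : Θ' → Θ} {t : Θ'} (hφ : ContinuousWithinAt φ s' t)
    (hs : MapsTo φ s' s) {y : ℂ} (h : CollarAt s B (φ t) y) :
    CollarAt s' (fun t => B (φ t)) t y := by
  intro X h0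
  refine RegAt.param (s := s ×ˢ (univ : Set ℂ)) (φ := fun p : Θ' × ℂ => (φ p.1, p.2))
    (F := fun (p : Θ × ℂ) X => B p.1 (X, p.2)) (t := (t, y)) ?_
    (fun p hp => ⟨hs hp.1, mem_univ _⟩) (h X h0)
  exact ContinuousWithinAt.prodMk (hφ.comp continuousWithinAt_fst fun p hp => hp.1)
    continuousWithinAt_snd

/-! ### Chains -/

variable {Θ : Type*} [TopologicalSpace Θ]

/-- The function of a chain of gates. -/
noncomputable def gch (G₁ : ℕ → Θ → ℂ → ℂ) (G : ℕ → Θ → ℝ → ℂ → ℂ)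
    (χ : ℕ → List ℕ → Θ → ℂ → ℝ) : List ℝ → (c : List ℕ) → Θ → Sp c → ℂ
  | _, [] => fun _ _ => 0
  | _, [a] => fun t p => G₁ a t p.2
  | κ, a :: b :: c => fun t p =>
      gch G₁ G χ κ.tail (b :: c) t p.1 + G a t (κ.headD 0 * χ a (b :: c) t p.1.2) p.2

section

variable {G₁ : ℕ → Θ → ℂ → ℂ} {G : ℕ → Θ → ℝ → ℂ → ℂ} {χ : ℕ → List ℕ → Θ → ℂ → ℝ}

theorem gch_single (κ : List ℝ) (a : ℕ) (t : Θ) (p : Sp [] × ℂ) :
    gch G₁ G χ κ [a] t p = G₁ a t p.2 := rfl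

theorem gch_cons (k : ℝ) (κ : List ℝ) (a b : ℕ) (c : List ℕ) (t : Θ) (p : (Sp c × ℂ) × ℂ) :
    gch G₁ G χ (k :: κ) (a :: b :: c) t p =
      gch G₁ G χ κ (b :: c) t p.1 + G a t (k * χ a (b :: c) t p.1.2) p.2 := rfl

/-- The data of a chain of gates: planar families `G a`, class `H` functions `G₁ a`, closed cones
`S a c` over which the new function of `a :: c` is negative, and gate functions `χ a c`. -/
structure GateData (s : Set Θ) (G₁ : ℕ → Θ → ℂ → ℂ) (G : ℕ → Θ → ℝ → ℂ → ℂ)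
    (χ : ℕ → List ℕ → Θ → ℂ → ℝ) (S : ℕ → List ℕ → Set (Θ × ℂ)) (ok : ℕ → List ℕ → Prop) :
    Prop where
  first : ∀ a, ok a [] → HFam s (G₁ a)
  first_neg : ∀ a, ok a [] → ∀ p ∈ S a [], p.1 ∈ s → p.2 ≠ 0 → (G₁ a p.1 p.2).re < 0
  planar : ∀ a b c, ok a (b :: c) → ∃ C, XPlanar s C (G a)
  closed : ∀ a b c, ok a (b :: c) → IsClosed (S a (b :: c))
  cone : ∀ a b c, ok a (b :: c) → ∀ p ∈ S a (b :: c), ∀ r : ℝ, 0 < r →
    (p.1, r • p.2) ∈ S a (b :: c)
  neg : ∀ a b c, ok a (b :: c) → ∀ p ∈ S a (b :: c), p.1 ∈ s → p.2 ≠ 0 → ∀ d : ℝ, 0 ≤ d →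
    (G a p.1 d p.2).re < 0
  χ_cont : ∀ a b c, ok a (b :: c) →
    ContinuousOn (fun p : Θ × ℂ => χ a (b :: c) p.1 p.2) (s ×ˢ univ)
  χ_hom : ∀ a b c, ok a (b :: c) → ∀ t ∈ s, ∀ r : ℝ, 0 ≤ r → ∀ y : ℂ,
    χ a (b :: c) t (r • y) = r * χ a (b :: c) t y
  χ_nonneg : ∀ a b c, ok a (b :: c) → ∀ t ∈ s, ∀ y, 0 ≤ χ a (b :: c) t y
  χ_cases : ∀ a b c, ok a (b :: c) → ∀ t ∈ s, ∀ y : ℂ, y ≠ 0 →
    (∃ U ∈ 𝓝 y, ∀ᶠ t' in 𝓝[s] t, ∀ y' ∈ U, χ a (b :: c) t' y' = 0) ∨
      (t, y) ∈ S b c ∨ ‖y‖ ≤ χ a (b :: c) t y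

/-- All levels are admissible. -/
def OkAll (ok : ℕ → List ℕ → Prop) : List ℕ → Prop
  | [] => True
  | a :: c => ok a c ∧ OkAll ok c

instance : Subsingleton (Sp []) := inferInstanceAs (Subsingleton (EuclideanSpace ℂ (Fin 0)))

/-- The first level. -/
theorem GateData.tame_first {s : Set Θ} {S : ℕ → List ℕ → Set (Θ × ℂ)}
    {ok : ℕ → List ℕ → Prop} (h : GateData s G₁ G χ S ok) {a : ℕ} (ha : ok a []) (κ : List ℝ) :
    XTame s (gch G₁ G χ κ [a] : Θ → Sp [] × ℂ → ℂ) ∧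
      ∀ p ∈ S a [], p.1 ∈ s → p.2 ≠ 0 →
        CollarAt s (gch G₁ G χ κ [a] : Θ → Sp [] × ℂ → ℂ) p.1 p.2 := by
  have h1 := h.first a ha
  refine ⟨⟨⟨?_, fun t ht r hr p => h1.hom t ht r hr p.2, fun t ht p hp h0 => ?_⟩,
    fun t _ X hX => absurd (Subsingleton.elim X 0) hX⟩, fun p hp hps hp0 X h0 => ?_⟩
  · exact h1.cont.comp (f := fun p : Θ × (Sp [] × ℂ) => (p.1, p.2.2))
      (by exact (by fun_prop : Continuous fun p : Θ × (Sp [] × ℂ) => (p.1, p.2.2)).continuousOn)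
      (fun p hp => ⟨hp.1, mem_univ _⟩)
  · have hz : p.2 ≠ 0 := fun e => hp (Prod.ext (Subsingleton.elim _ _) e)
    refine RegAt.snd ?_
    exact RegAt.param (φ := Prod.fst) (F := G₁ a) (t := (t, p.1)) continuousWithinAt_fst
      (fun q hq => hq.1) (h1.reg t ht p.2 hz h0)
  · exact absurd h0 (not_le.mpr (h.first_neg a ha p hp hps hp0))

/-- **Chains of gates are tame.** -/
theorem GateData.tame {s : Set Θ} (hs : IsCompact s) {S : ℕ → List ℕ → Set (Θ × ℂ)}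
    {ok : ℕ → List ℕ → Prop} (h : GateData s G₁ G χ S ok) :
    ∀ (c : List ℕ) (a : ℕ), OkAll ok (a :: c) → Nest c.length fun κ =>
      XTame s (gch G₁ G χ κ (a :: c) : Θ → Sp c × ℂ → ℂ) ∧
        ∀ p ∈ S a c, p.1 ∈ s → p.2 ≠ 0 →
          CollarAt s (gch G₁ G χ κ (a :: c) : Θ → Sp c × ℂ → ℂ) p.1 p.2
  | [], a, hok => h.tame_first hok.1 []
  | b :: c, a, hok => by
    have ih := GateData.tame hs h c b hok.2
    refine Nest.mono (n := c.length) ih fun κ _ hκ => ?_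
    obtain ⟨hT, hcol⟩ := hκ
    have hg : GateFun s (gch G₁ G χ κ (b :: c) : Θ → Sp c × ℂ → ℂ) (χ a (b :: c)) :=
      ⟨h.χ_cont a b c hok.1, h.χ_hom a b c hok.1, h.χ_nonneg a b c hok.1, fun t ht y hy => by
        rcases h.χ_cases a b c hok.1 t ht y hy with h1 | h1 | h1
        · exact Or.inl h1
        · exact Or.inr (Or.inl (hcol (t, y) h1 ht hy))
        · exact Or.inr (Or.inr h1)⟩
    obtain ⟨C, hP⟩ := h.planar a b c hok.1
    obtain ⟨k₀, hG, hshut⟩ := hP.gate hs (h.closed a b c hok.1) (h.cone a b c hok.1)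
      (h.neg a b c hok.1)
    obtain ⟨α₀, hα₀, hlev, hcol'⟩ := XGate.level hs hT hg hG
    filter_upwards [eventually_ge_atTop α₀] with k hk
    have hφ : ContinuousOn (fun t : Θ => (t, k)) s := by
      exact (by fun_prop : Continuous fun t : Θ => (t, k)).continuousOn
    have hm : MapsTo (fun t : Θ => (t, k)) s (s ×ˢ Ici α₀) := fun t ht => ⟨ht, hk⟩
    refine ⟨hlev.param hφ hm, fun p hp hps hp0 => ?_⟩
    exact CollarAt.param (s := s ×ˢ Ici α₀) (B := attach (gch G₁ G χ κ (b :: c) :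
      Θ → Sp c × ℂ → ℂ) (G a) (χ a (b :: c))) (φ := fun t : Θ => (t, k)) (t := p.1)
      (hφ p.1 hps) hm (hcol' (p.1, k) (hm hps) p.2 (hshut p hp hps hp0))

end

section

variable {Θ : Type} [TopologicalSpace Θ]
  {G₁ : ℕ → Θ → ℂ → ℂ} {G : ℕ → Θ → ℝ → ℂ → ℂ} {χ : ℕ → List ℕ → Θ → ℂ → ℝ}

/-- Two chains of gates in a connected family are equivalent. -/
theorem GateData.hEqv {s : Set Θ} (hs : IsCompact s) (hs' : IsPreconnected s)
    {S : ℕ → List ℕ → Set (Θ × ℂ)} {ok : ℕ → List ℕ → Prop} (h : GateData s G₁ G χ S ok)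
    {c : List ℕ} (hc : c ≠ []) (hok : OkAll ok c) {t t' : Θ} (ht : t ∈ s) (ht' : t' ∈ s) :
    Nest (c.length - 1) fun κ => HEqv (gch G₁ G χ κ c t) (gch G₁ G χ κ c t') := by
  obtain ⟨a, c, rfl⟩ := List.exists_cons_of_ne_nil hc
  refine (GateData.tame hs h c a hok).mono fun κ _ hκ => ?_
  exact HEqv.of_fam (E := Sp c × ℂ) hs' hκ.1.fam ht ht'

end

end Vale.Agent.P268.T
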