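import Vale.Agent.P268.T.H128.Ind
import Vale.Agent.P268.T.H830.Chain

/-!
# P268, topological half: chains of gates, with the filters `nestF`
-/

namespace Vale.Agent.P268.T

open Set Filter Topology

theorem nest_iff {n : ℕ} {P : List ℝ → Prop} : Nest n P ↔ ∀ᶠ l in RV.nestF n, P l := by
  induction n generalizing P with
  | zero => exact RV.eventually_nestF_zero.symm
  | succ n ih =>
    rw [RV.eventually_nestF_succ]
    exact ih

/-- Two chains of gates in a connected family are equivalent. -/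
theorem GateData.eventually_hEqv {Θ : Type} [TopologicalSpace Θ]
    {G₁ : ℕ → Θ → ℂ → ℂ} {G : ℕ → Θ → ℝ → ℂ → ℂ} {χ : ℕ → List ℕ → Θ → ℂ → ℝ} {s : Set Θ}
    (hs : IsCompact s) (hs' : IsPreconnected s)
    {S : ℕ → List ℕ → Set (Θ × ℂ)} {ok : ℕ → List ℕ → Prop} (h : GateData s G₁ G χ S ok)
    {c : List ℕ} (hc : c ≠ []) (hok : OkAll ok c) {t t' : Θ} (ht : t ∈ s) (ht' : t' ∈ s) :
    ∀ᶠ κ in RV.nestF (c.length - 1), HEqv (gch G₁ G χ κ c t) (gch G₁ G χ κ c t') :=
  nest_iff.mp (h.hEqv hs hs' hc hok ht ht')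

end Vale.Agent.P268.T
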